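import Vale.Agent.P308.Defs
import Vale.Agent.P317.Algo

/-! The algorithm as a machine folding over the coins; polynomial running time. -/

namespace Vale.Agent.P308

open Vale.Agent.Common.TreeTM Vale.Agent.P337 Vale.Agent.P317

/-- Parameters: size, accuracy, confidence, adjacency matrix, a long list. -/
abbrev Par : Type := ℕ × ℕ × ℕ × List (List Bool) × List Bool
/-- Proposal, samples, raised pairs, lowered pairs, factors, finished flag. -/
abbrev St : Type := List ℕ × List (List ℕ) × List (ℕ × ℕ) × List (ℕ × ℕ) × List ℕ × Bool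

def rg (p : Par) (k : ℕ) : List ℕ := idx (p.2.2.2.2.take k)
def LL (p : Par) : ℕ := p.2.1.bits.length
def gn (l : List ℕ) (k : ℕ) : ℕ := l.getD k 0
def mt (a b : ℕ) (q : ℕ × ℕ) : Bool := (neq q.1 a && neq q.2 b) || (neq q.1 b && neq q.2 a)
def kk (P : ℕ) (u d : List (ℕ × ℕ)) (a b : ℕ) : ℕ := P ^ 9 + u.countP (mt a b) - d.countP (mt a b)
def cap (p : Par) (a b : ℕ) : ℕ := p.2.1 ^ 9 + bif (p.2.2.2.1.getD a []).getD b false then 0 else p.2.1 ^ 2
def en (p : Par) (u d : List (ℕ × ℕ)) (l : List ℕ) : ℕ :=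
  ((rg p p.1).map fun a => kk p.2.1 u d a (gn l a)).sum
def sw (a b u : ℕ) : ℕ := bif neq u a then b else bif neq u b then a else u
def nrm (p : Par) (l : List ℕ) : List ℕ := (rg p p.1).map fun u => min (gn l u) p.1
def pa (p : Par) (v : List Bool) : ℕ := ofBits (v.take (LL p))
def pb (p : Par) (v : List Bool) : ℕ := ofBits ((v.drop (LL p)).take (LL p))
def prp (p : Par) (l : List ℕ) (v : List Bool) : List ℕ :=
  bif nlt (pa p v) p.1 && nlt (pb p v) p.1 then
    (rg p p.1).map fun u => sw (pa p v) (pb p v) (gn l (sw (pa p v) (pb p v) u)) else l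
def t0 (p : Par) : List ℕ := (rg p p.1).map fun u => bif neq (u % 2) 0 then u + 1 else u - 1
def prs (p : Par) : List (ℕ × ℕ) :=
  (rg p p.1).flatMap fun a => ((rg p p.1).filter fun b => !neq a b).map fun b => (a, b)
def cn (m : List (List ℕ)) (q : ℕ × ℕ) : ℕ := m.countP fun l => neq (gn l q.1) q.2
def MM (p : Par) : ℕ := p.2.1 ^ 24 * p.2.2.1
def lo (p : Par) (m : List (List ℕ)) : List (ℕ × ℕ) :=
  (prs p).filter fun q => nlt (cn m q * p.2.1 ^ 6) (2 * MM p)
def hi (p : Par) (m : List (List ℕ)) (u d : List (ℕ × ℕ)) : List (ℕ × ℕ) :=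
  (prs p).filter fun q => nlt (kk p.2.1 u d q.1 q.2) (cap p q.1 q.2) && !nlt (cn m q * p.2.1 ^ 6) (24 * MM p)
def pick (p : Par) (l : List (ℕ × ℕ)) : ℕ × ℕ := (min (l.headD (0, 0)).1 p.1, min (l.headD (0, 0)).2 p.1)
def endr (p : Par) (m : List (List ℕ)) (r : List (ℕ × ℕ) × List (ℕ × ℕ) × List ℕ × Bool) :
    List (ℕ × ℕ) × List (ℕ × ℕ) × List ℕ × Bool :=
  bif r.2.2.2 then r else bif isCons (lo p m) then (r.1, pick p (lo p m) :: r.2.1,
    min (4 * MM p + 12 * cn m (pick p (lo p m))) (16 * MM p) :: r.2.2.1, false)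
  else bif isCons (hi p m r.1 r.2.1) then (pick p (hi p m r.1 r.2.1) :: r.1, r.2.1,
    (4 * MM p - 3 * cn m (pick p (hi p m r.1 r.2.1))) :: r.2.2.1, false)
  else (r.1, r.2.1, r.2.2.1, true)
def ok (p : Par) (s : St) (v : List Bool) : Bool :=
  (v.take (en p s.2.2.1 s.2.2.2.1 s.1 - en p s.2.2.1 s.2.2.2.1 (s.2.1.headD []) + 1)).all (!·)
def upd (p : Par) (i : ℕ) (s : St) (v : List Bool) : St :=
  bif neq i 0 then (t0 p, t0 p :: s.2.1, s.2.2)
  else bif neq i 1 then (nrm p (prp p s.1 v), s.2)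
  else bif neq i 2 then (bif ok p s v then (nrm p s.1, nrm p s.1 :: s.2.1.tail, s.2.2)
    else (nrm p (s.2.1.headD []), s.2))
  else ([], [], endr p s.2.1 s.2.2)
def bb (p : Par) : ℕ := LL p + (LL p + p.2.1 ^ 11)
def TT (p : Par) : ℕ := 2 ^ (p.2.2.2.2.take (120 * LL p ^ 3)).length
def stI (p : Par) : List ℕ := ((rg p (8 * LL p + 9)).map fun _ => 1) ++ [2]
def rnd (p : Par) : List ℕ := ((rg p (MM p)).flatMap fun _ => 0 :: (rg p (TT p)).flatMap fun _ => stI p) ++ [3]
def ins (p : Par) : List ℕ := (rg p (p.2.1 ^ 9)).flatMap fun _ => rnd p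
def out (p : Par) (f : List ℕ) : ℕ × ℕ :=
  bif neq p.1 0 then (1, 1) else bif neq (p.1 % 2) 1 ||
    nlt (2 * (((rg p (p.1 / 2)).map fun i => 2 * i + 1).prod * f.prod)) ((4 * MM p) ^ f.length) then (0, 1)
  else (((rg p (p.1 / 2)).map fun i => 2 * i + 1).prod * f.prod, (4 * MM p) ^ f.length)
/-- State, remaining coins, remaining instructions. -/
abbrev Mc : Type := St × List Bool × List ℕ
def ms (p : Par) (z : Mc) : Mc :=
  bif isCons z.2.2 then (upd p (z.2.2.headD 0) z.1 (z.2.1.take (bb p)), z.2.1.drop (bb p), z.2.2.tail) else z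
def par (y : Inp) : Par := (y.1.1.length, 64 * (y.1.1.length + y.1.2.1.den / y.1.2.1.num.toNat + 2),
  (y.1.2.2.den / y.1.2.2.num.toNat + 1).bits.length + 1, y.1.1, y.2.map fun _ => false)
def run (p : Par) (w : List Bool) : Mc := w.foldl (fun z _ => ms p z) (([], [], [], [], [], false), w, ins p)
def alg (y : Inp) : ℕ × ℕ := out (par y) (run (par y) y.2).1.2.2.2.2.1

section tc

variable {α : Type} [Enc α] {p : α → Par} {s : α → St} {a b c : α → ℕ} {l : α → List ℕ} {v : α → List Bool}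
  {u d : α → List (ℕ × ℕ)} {q : α → ℕ × ℕ} {m : α → List (List ℕ)}

@[fun_prop] theorem tc_rg (hp : TC 0 p) (hk : TC 0 a) : TC 0 fun x => rg (p x) (a x) := by
  unfold rg; fun_prop
@[fun_prop] theorem tc_LL (hp : TC 0 p) : TC 0 fun x => LL (p x) := by unfold LL; fun_prop
@[fun_prop] theorem tc_gn (hl : TC 0 l) (hk : TC 0 a) : TC 0 fun x => gn (l x) (a x) := by
  unfold gn; fun_prop
@[fun_prop] theorem tc_mt (ha : TC 0 a) (hb : TC 0 b) (hq : TC 0 q) : TC 0 fun x => mt (a x) (b x) (q x) := by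
  unfold mt; fun_prop
@[fun_prop] theorem tc_kk (hc : TC 0 c) (hu : TC 0 u) (hd : TC 0 d) (ha : TC 0 a) (hb : TC 0 b) :
    TC 0 fun x => kk (c x) (u x) (d x) (a x) (b x) := by unfold kk; fun_prop
@[fun_prop] theorem tc_cap (hp : TC 0 p) (ha : TC 0 a) (hb : TC 0 b) :
    TC 0 fun x => cap (p x) (a x) (b x) := by unfold cap; fun_prop
@[fun_prop] theorem tc_en (hp : TC 0 p) (hu : TC 0 u) (hd : TC 0 d) (hl : TC 0 l) :
    TC 0 fun x => en (p x) (u x) (d x) (l x) := by unfold en; fun_prop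
@[fun_prop] theorem tc_sw (ha : TC 0 a) (hb : TC 0 b) (hc : TC 0 c) : TC 0 fun x => sw (a x) (b x) (c x) := by
  unfold sw; fun_prop
@[fun_prop] theorem tc_nrm (hp : TC 0 p) (hl : TC 0 l) : TC 0 fun x => nrm (p x) (l x) := by
  unfold nrm; fun_prop
@[fun_prop] theorem tc_pa (hp : TC 0 p) (hv : TC 0 v) : TC 0 fun x => pa (p x) (v x) := by
  unfold pa; fun_prop
@[fun_prop] theorem tc_pb (hp : TC 0 p) (hv : TC 0 v) : TC 0 fun x => pb (p x) (v x) := by
  unfold pb; fun_prop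
@[fun_prop] theorem tc_prp (hp : TC 0 p) (hl : TC 0 l) (hv : TC 0 v) :
    TC 0 fun x => prp (p x) (l x) (v x) := by unfold prp; fun_prop
@[fun_prop] theorem tc_t0 (hp : TC 0 p) : TC 0 fun x => t0 (p x) := by unfold t0; fun_prop
@[fun_prop] theorem tc_prs (hp : TC 0 p) : TC 0 fun x => prs (p x) := by unfold prs; fun_prop
@[fun_prop] theorem tc_cn (hm : TC 0 m) (hq : TC 0 q) : TC 0 fun x => cn (m x) (q x) := by
  unfold cn; fun_prop
@[fun_prop] theorem tc_MM (hp : TC 0 p) : TC 0 fun x => MM (p x) := by unfold MM; fun_prop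
@[fun_prop] theorem tc_lo (hp : TC 0 p) (hm : TC 0 m) : TC 0 fun x => lo (p x) (m x) := by
  unfold lo; fun_prop
@[fun_prop] theorem tc_hi (hp : TC 0 p) (hm : TC 0 m) (hu : TC 0 u) (hd : TC 0 d) :
    TC 0 fun x => hi (p x) (m x) (u x) (d x) := by unfold hi; fun_prop
@[fun_prop] theorem tc_pick (hp : TC 0 p) (hu : TC 0 u) : TC 0 fun x => pick (p x) (u x) := by
  unfold pick; fun_prop
theorem tc_endr {r : α → List (ℕ × ℕ) × List (ℕ × ℕ) × List ℕ × Bool} (hp : TC 0 p) (hm : TC 0 m)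
    (hr : TC 0 r) : TC 0 fun x => endr (p x) (m x) (r x) :=
  have h1 := tc_lo hp hm
  have h2 := tc_hi hp hm hr.fst hr.snd.fst
  have h3 := TC.mul (TC.const 4) (tc_MM hp)
  TC.cond hr.snd.snd.snd hr (TC.cond (TC.isCons'.comp h1) (hr.fst.pair (((tc_pick hp h1).cons hr.snd.fst).pair
    (((tc_min (h3.add (TC.mul (TC.const 12) (tc_cn hm (tc_pick hp h1)))) (TC.mul (TC.const 16) (tc_MM hp))).cons
      hr.snd.snd.fst).pair (TC.const _)))) (TC.cond (TC.isCons'.comp h2) (((tc_pick hp h2).cons hr.fst).pair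
    (hr.snd.fst.pair (((h3.sub (TC.mul (TC.const 3) (tc_cn hm (tc_pick hp h2)))).cons hr.snd.snd.fst).pair
      (TC.const _)))) (hr.fst.pair (hr.snd.fst.pair (hr.snd.snd.fst.pair (TC.const _))))))
theorem tc_ok (hp : TC 0 p) (hs : TC 0 s) (hv : TC 0 v) : TC 0 fun x => ok (p x) (s x) (v x) :=
  TC.all (f := fun _ z => !z) (by fun_prop) (tc_take hv (((tc_en hp hs.snd.snd.fst hs.snd.snd.snd.fst hs.fst).sub
    (tc_en hp hs.snd.snd.fst hs.snd.snd.snd.fst (hs.snd.fst.headD (TC.const _)))).add (TC.const _)))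
theorem tc_upd (hp : TC 0 p) (ha : TC 0 a) (hs : TC 0 s) (hv : TC 0 v) :
    TC 0 fun x => upd (p x) (a x) (s x) (v x) :=
  TC.cond (tc_neq ha (TC.const _)) ((tc_t0 hp).pair (((tc_t0 hp).cons hs.snd.fst).pair hs.snd.snd)) (TC.cond
    (tc_neq ha (TC.const _)) ((tc_nrm hp (tc_prp hp hs.fst hv)).pair hs.snd) (TC.cond (tc_neq ha (TC.const _))
    (TC.cond (tc_ok hp hs hv) ((tc_nrm hp hs.fst).pair (((tc_nrm hp hs.fst).cons hs.snd.fst.tail).pair hs.snd.snd))
      ((tc_nrm hp (hs.snd.fst.headD (TC.const _))).pair hs.snd))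
    ((TC.const _).pair ((TC.const _).pair (tc_endr hp hs.snd.fst hs.snd.snd)))))
@[fun_prop] theorem tc_bb (hp : TC 0 p) : TC 0 fun x => bb (p x) := by unfold bb; fun_prop
@[fun_prop] theorem tc_TT (hp : TC 0 p) : TC 0 fun x => TT (p x) := by unfold TT; fun_prop
@[fun_prop] theorem tc_stI (hp : TC 0 p) : TC 0 fun x => stI (p x) := by unfold stI; fun_prop
@[fun_prop] theorem tc_rnd (hp : TC 0 p) : TC 0 fun x => rnd (p x) := by unfold rnd; fun_prop
@[fun_prop] theorem tc_ins (hp : TC 0 p) : TC 0 fun x => ins (p x) := by unfold ins; fun_prop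
theorem tc_out (hp : TC 0 p) (hl : TC 0 l) : TC 0 fun x => out (p x) (l x) :=
  have h1 : TC 0 fun x => ((rg (p x) ((p x).1 / 2)).map fun i => 2 * i + 1).prod * (l x).prod := by fun_prop
  have h2 := tc_powLen ((TC.const 4).mul (tc_MM hp)) hl
  TC.cond (tc_neq hp.fst (TC.const _)) (TC.const _) (TC.cond (by fun_prop) (TC.const _) (h1.pair h2))
theorem tc_ms {z : α → Mc} (hp : TC 0 p) (hz : TC 0 z) : TC 0 fun x => ms (p x) (z x) :=
  TC.cond (TC.isCons'.comp hz.snd.snd) ((tc_upd hp (hz.snd.snd.headD (TC.const _)) hz.fst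
    (tc_take hz.snd.fst (tc_bb hp))).pair ((tc_drop hz.snd.fst (tc_bb hp)).pair hz.snd.snd.tail)) hz

end tc

theorem sz_ms (p : Par) (z : Mc) : sz (ms p z) ≤ sz z +
    (2 * (sz p.2.2.2.2 * (4 * sz p.1 + 2)) + 2 * sz (t0 p) + 8 * sz p.1 + 4 * sz (16 * MM p) + 9) := by
  obtain ⟨⟨st, m, u, d, f, e⟩, c, is⟩ := z
  have h1 : ∀ l, sz (nrm p l) ≤ sz p.2.2.2.2 * (4 * sz p.1 + 2) + 1 := fun l => by
    refine (sz_list_le (b := 4 * sz p.1 + 1) fun a ha => ?_).trans (Nat.succ_le_succ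
      (Nat.mul_le_mul_right _ (le_trans ?_ (length_le_sz p.2.2.2.2))))
    · obtain ⟨x, -, rfl⟩ := List.mem_map.1 ha
      exact sz_nat_mono (min_le_right _ _)
    · simp [nrm, rg, idx]
  have h2 := sz_drop c (bb p)
  have h3 := sz_drop is 1
  have h4 := sz_drop m 1
  have h5 : ∀ x, sz (min x (16 * MM p)) ≤ 4 * sz (16 * MM p) + 1 := fun x => sz_nat_mono (min_le_right _ _)
  have h6 : ∀ x, sz (4 * MM p - x) ≤ 4 * sz (16 * MM p) + 1 := fun x => sz_nat_mono (by omega)
  have h7 : ∀ l, sz (pick p l) ≤ 8 * sz p.1 + 3 := fun l => by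
    have := sz_nat_mono (min_le_right (l.headD (0, 0)).1 p.1)
    have := sz_nat_mono (min_le_right (l.headD (0, 0)).2 p.1)
    rw [pick, sz_pair]
    omega
  have h8 := one_le_sz st
  have h9 := one_le_sz m
  have h10 := one_le_sz e
  have h11 := sz_bool true
  have h12 := sz_bool false
  rw [List.drop_one] at h3 h4
  have e1 : sz (endr p m (u, d, f, e)) ≤ sz (u, d, f, e) + (8 * sz p.1 + 4 * sz (16 * MM p) + 9) := by
    unfold endr
    cases e
    · cases isCons (lo p m)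
      · cases isCons (hi p m u d) <;> simp only [Bool.cond_true, Bool.cond_false, sz_pair, sz_lcons] <;> grind
      · simp only [Bool.cond_true, Bool.cond_false, sz_pair, sz_lcons]
        grind
    · simp
  unfold ms upd
  cases isCons is
  · simp
  generalize is.headD 0 = i
  have := h1 (prp p st (c.take (bb p)))
  have := h1 st
  have := h1 (m.headD [])
  cases neq i 0
  · cases neq i 1
    · cases neq i 2
      · simp only [Bool.cond_true, Bool.cond_false, sz_pair, sz_lnil] at *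
        omega
      · cases ok p (st, m, u, d, f, e) (c.take (bb p)) <;>
          simp only [Bool.cond_true, Bool.cond_false, sz_pair, sz_lcons] <;> omega
    · simp only [Bool.cond_true, Bool.cond_false, sz_pair]
      omega
  · simp only [Bool.cond_true, sz_pair, sz_lcons]
    omega

theorem tc_par : TC 0 par := by
  have h : TC 0 fun r : ℚ => (r.num.toNat, r.den) := TC.id.of_enc fun _ => rfl
  have h1 : TC 0 fun y : Inp => (y.1.2.1.num.toNat, y.1.2.1.den) := h.comp (by fun_prop)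
  have h2 : TC 0 fun y : Inp => (y.1.2.2.num.toNat, y.1.2.2.den) := h.comp (by fun_prop)
  exact TC.pair (by fun_prop) (TC.pair (TC.mul (TC.const _) (TC.add (TC.add (by fun_prop)
    (TC.div h1.snd h1.fst)) (TC.const _))) (TC.pair (TC.add (TC.length (TC.bits (TC.add (TC.div h2.snd h2.fst)
    (TC.const _)))) (TC.const _)) (by fun_prop)))

theorem tc_run {α : Type} [Enc α] {p : α → Par} {w : α → List Bool} (hp : TC 0 p) (hw : TC 0 w) :
    TC 0 fun a => run (p a) (w a) := by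
  have h' : TC 0 fun q : α × Bool => p q.1 := hp.comp TC.fst'
  exact TC.foldl_grow (f := fun y z _ => ms (p y) z) (tc_ms (hp.comp TC.fst') TC.snd'.fst)
    ((TC.const _).pair (hw.pair (tc_ins hp))) hw ((((((Bd.const _ 2).mul (h'.snd.snd.snd.snd.bd.mul
      (((Bd.const _ 4).mul h'.fst.bd).add (Bd.const _ 2)))).add ((Bd.const _ 2).mul (tc_t0 h').bd)).add
      ((Bd.const _ 8).mul h'.fst.bd)).add ((Bd.const _ 4).mul ((TC.const 16).mul (tc_MM h')).bd)).add
      (Bd.const _ 9)) fun y z _ => sz_ms _ z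

open Turing in
theorem poly_alg : ∃ tm : TM2ComputableInPolyTime encInp (encPair encNat encNat) alg,
    ∀ k, Finite (tm.tm.Γ k) := by
  obtain ⟨C, tm, h1, h2⟩ := (tc_out tc_par (tc_run tc_par TC.snd').fst.snd.snd.snd.snd.fst).toTM encInp
    (encPair encNat encNat) alg id (fun y => by
      simp only [encInp, encPair, encRat, encList, enc_list _ e_bool, e_nat]
      rw [enc_list _ fun _ => rfl]
      rfl) fun x => by simp only [encPair, e_nat]; rfl
  refine ⟨⟨tm.toTM2ComputableAux, (2 * Polynomial.X + 2) ^ C, fun a =>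
    ⟨(tm.outputsFun a).toEvalsTo, (tm.outputsFun a).steps_le_m.trans ((h2 _).trans ?_)⟩⟩, h1⟩
  generalize (encInp a).length = L
  simp only [Polynomial.eval_pow, Polynomial.eval_add, Polynomial.eval_mul, Polynomial.eval_ofNat,
    Polynomial.eval_X, zero_add, pow_one]
  rw [mul_comm, pow_mul]
  refine Nat.pow_le_pow_left ?_ _
  rcases Nat.eq_zero_or_pos L with rfl | h
  · simp
  · have := Nat.pow_log_le_self 2 h.ne'
    rw [pow_succ]
    omega

end Vale.Agent.P308
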