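import Vale.Agent.P308.Hyp
import Vale.Agent.P317.Main

/-! The invariant of the annealing. -/

namespace Vale.Agent.P308

open Finset Vale.Agent.P317

variable {n P : ℕ} {k k' cp : Fin n → Fin n → ℕ} {a b : Fin n}

/-- Indicator of an unordered pair. -/
def mtf (a b u v : Fin n) : ℕ := if u = a ∧ v = b ∨ u = b ∧ v = a then 1 else 0

theorem wt_up (h : ∀ u v, k' u v = k u v + mtf a b u v) (ab : a ≠ b) (T : Fin n → Fin n) :
    wt k T = wt k' T * (1 + 3 * if T a = b then 1 else 0) ∧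
      wt k' T = wt k T * (1 - 3 / 4 * if T a = b then 1 else 0) := by
  by_cases t : PM T
  · have e : ∀ u, mtf a b u (T u) = (if u = a then if T a = b then 1 else 0 else 0) +
        if u = b then if T a = b then 1 else 0 else 0 := fun u => by
      have := t a
      have := t b
      unfold mtf
      grind
    simp only [wt_pm t, En, h, sum_add_distrib, e, sum_ite_eq', mem_univ, if_true, pow_add]
    split_ifs <;> constructor <;> ring
  · simp [wt, t]

theorem sum_up (h : ∀ u v, k' u v = k u v + mtf a b u v) (ab : a ≠ b) :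
    ∑ u, ∑ v, k' u v = ∑ u, ∑ v, k u v + 2 := by
  have e : ∀ u v, mtf a b u v = (if u = a then if v = b then 1 else 0 else 0) +
      if u = b then if v = a then 1 else 0 else 0 := fun u v => by
    unfold mtf
    grind
  simp [h, sum_add_distrib, e]

theorem num_nonneg (k : Fin n → Fin n → ℕ) (a b : Fin n) : 0 ≤ num k a b :=
  sum_nonneg fun T _ => mul_nonneg (wt_nonneg _ _) (by positivity)

theorem num_le (k : Fin n → Fin n → ℕ) (a b : Fin n) : num k a b ≤ ∑ T, wt k T :=
  sum_le_sum fun T _ => mul_le_of_le_one_right (wt_nonneg _ _) (by split_ifs <;> norm_num)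

theorem num_comm (k : Fin n → Fin n → ℕ) (a b : Fin n) : num k a b = num k b a :=
  sum_congr rfl fun T _ => by
    by_cases t : PM T
    · rw [if_congr (show T a = b ↔ T b = a from ⟨fun h => h ▸ (t a).1, fun h => h ▸ (t b).1⟩) rfl rfl]
    · simp [wt, t]

theorem Z_up (h : ∀ u v, k' u v = k u v + mtf a b u v) (ab : a ≠ b) :
    ∑ T, wt k T = ∑ T, wt k' T + 3 * num k' a b ∧ ∑ T, wt k' T = ∑ T, wt k T - 3 / 4 * num k a b := by
  constructor
  · simp only [fun T => (wt_up h ab T).1, num, mul_add, sum_add_distrib, mul_one, mul_left_comm (wt _ _),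
      ← mul_sum]
  · simp only [fun T => (wt_up h ab T).2, num, mul_sub, sum_sub_distrib, mul_one, mul_left_comm (wt _ _),
      ← mul_sum]

theorem num_up (h : ∀ u v, k' u v = k u v + mtf a b u v) (ab : a ≠ b) (u v : Fin n) :
    4 ^ mtf a b u v * num k' u v ≤ num k u v ∧ num k u v ≤ 4 * num k' u v := by
  simp only [num, mul_sum]
  constructor <;> refine sum_le_sum fun T _ => ?_ <;> rw [(wt_up h ab T).1] <;> have := wt_nonneg k' T
  · by_cases t : PM T
    · have := t a
      have := t b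
      unfold mtf
      split_ifs <;> first | linarith | grind
    · simp [wt, t]
  · split_ifs <;> linarith

variable (P cp) in
/-- The invariant before round `j`. -/
structure Inv (j : ℕ) (k : Fin n → Fin n → ℕ) (e : ℝ) (d : Bool) : Prop where
  sym : ∀ a b, k a b = k b a
  dg : ∀ a, k a a = P ^ 9
  lb : ∀ a b, P ^ 9 ≤ k a b + j
  ub : ∀ a b, k a b ≤ cp a b
  ap : Ap (36 / P ^ 11 * j) ((∑ T, wt k T) * 2 ^ (n * P ^ 9)) e
  low : ∃ J : Fin n → Fin n → ℕ, (∀ a b, J a b ≤ 2) ∧ ∀ a b, a ≠ b → 3 / P ^ 6 * (1 / 4) ^ J a b *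
    Real.exp (5 / P ^ 6 * (∑ u, ∑ v, J u v : ℕ)) * ∑ T, wt k T ≤ num k a b
  pot : d = false → (∑ T, wt k T) * Real.exp (13 / 2 / P ^ 6 * (∑ u, ∑ v, k u v : ℕ) + 4 / P ^ 6 * j) ≤
    n ^ n * (1 / 2) ^ (n * P ^ 9) * Real.exp (13 / 2 / P ^ 6 * (n ^ 2 * P ^ 9))
  fin : d = true → ∀ a b, a ≠ b → k a b = cp a b ∨ num k a b ≤ 25 / P ^ 6 * ∑ T, wt k T

variable {j : ℕ} {e x : ℝ} {d : Bool}

theorem Inv.marg (h : Inv P cp j k e d) (ab : a ≠ b) : 1 / (8 * P ^ 6) * ∑ T, wt k T ≤ num k a b := by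
  obtain ⟨J, j1, j2⟩ := h.low
  refine le_trans (mul_le_mul_of_nonneg_right ?_ (sum_nonneg fun T _ => wt_nonneg _ _)) (j2 a b ab)
  have := pow_le_pow_of_le_one (by norm_num) (by norm_num : (1 / 4 : ℝ) ≤ 1) (j1 a b)
  refine le_trans ?_ (le_mul_of_one_le_right (by positivity) (Real.one_le_exp (by positivity)))
  rw [← one_div_mul_one_div, div_eq_mul_one_div (3 : ℝ)]
  nlinarith [show (0 : ℝ) ≤ 1 / P ^ 6 by positivity]

theorem Inv.idle (h : Inv P cp j k e d)
    (f : ∀ a b, a ≠ b → k a b = cp a b ∨ num k a b ≤ 25 / P ^ 6 * ∑ T, wt k T) : Inv P cp (j + 1) k e true :=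
  ⟨h.sym, h.dg, fun a b => (h.lb a b).trans (by omega), h.ub, h.ap.mono (by gcongr; omega), h.low, nofun,
    fun _ => f⟩

theorem ap_step {Z Z' y z : ℝ} (h : Ap (36 / P ^ 11 * j) (Z * 2 ^ (n * P ^ 9)) e) (e1 : Z' = Z * y)
    (h1 : |y - z| ≤ 9 / P ^ 11) (h2 : 0 ≤ y) (h3 : 1 / 4 ≤ z) :
    Ap (36 / P ^ 11 * (j + 1 : ℕ)) (Z' * 2 ^ (n * P ^ 9)) (e * z) := by
  rw [e1, mul_right_comm]
  exact (h.mul (Ap.of_abs h1 h2 h3) (by positivity) (by positivity)).mono (le_of_eq (by push_cast; ring))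

theorem Inv.boost (h : Inv P cp j k e false) (hZ : 0 < ∑ T, wt k T) (hk : ∀ u v, k u v = k' u v + mtf a b u v)
    (ab : a ≠ b) (hx : |num k a b / (∑ T, wt k T) - x| ≤ 3 / P ^ 11) (x0 : 0 ≤ x)
    (lt : num k a b < 3 / P ^ 6 * ∑ T, wt k T) : Inv P cp (j + 1) k' (e * (1 + 3 * x)) false := by
  have z := (Z_up hk ab).1
  have s := sum_up hk ab
  have c0 : (0 : ℝ) ≤ 1 / P ^ 6 := by positivity
  have n0 := num_nonneg k a b
  have z1 : ∑ T, wt k' T ≤ (∑ T, wt k T) * Real.exp (9 / P ^ 6) := by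
    nlinarith [mul_le_mul_of_nonneg_left (Real.add_one_le_exp (9 / P ^ 6)) hZ.le,
      show (9 : ℝ) / P ^ 6 = 3 * (3 / P ^ 6) by ring]
  refine ⟨fun u v => ?_, fun u => ?_, fun u v => ?_, fun u v => ?_, ap_step (y := 1 + 3 * (num k a b / ∑ T, wt k T))
    h.ap (by rw [z]; field_simp) ?_ (by positivity) (by linarith), ?_, fun _ => le_trans ?_ (h.pot rfl), nofun⟩
  · have := h.sym u v
    simp only [hk, mtf] at this
    grind
  · have := h.dg u
    simp only [hk, mtf] at this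
    grind
  · have := h.lb u v
    simp only [hk, mtf] at this
    grind
  · exact (Nat.le_add_right _ _).trans ((hk u v).ge.trans (h.ub u v))
  · rw [add_sub_add_left_eq_sub, ← mul_sub, abs_mul, abs_of_pos three_pos]
    linarith [show (9 : ℝ) / P ^ 11 = 3 * (3 / P ^ 11) by ring]
  · obtain ⟨J, j1, j2⟩ := h.low
    have p : ∀ u v, u ≠ v → num k u v = num k a b → J u v ≠ 0 := fun u v c f g => by
      have := j2 u v c
      rw [g, pow_zero, mul_one, f] at this
      exact absurd (lt.trans_le' this) (not_lt.2 (mul_le_mul_of_nonneg_right (le_mul_of_one_le_right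
        (by positivity) (Real.one_le_exp (by positivity))) hZ.le))
    have q : ∀ u v, J u v = J u v - mtf a b u v + mtf a b u v := fun u v => by
      have := p a b ab rfl
      have := p b a ab.symm (num_comm _ _ _)
      unfold mtf
      grind
    refine ⟨fun u v => J u v - mtf a b u v, fun u v => (Nat.sub_le _ _).trans (j1 u v), fun u v c => ?_⟩
    have := mul_le_mul_of_nonneg_left (j2 u v c) (show (0 : ℝ) ≤ 4 ^ mtf a b u v by positivity)
    rw [sum_up q ab, q u v, pow_add] at this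
    refine le_trans ?_ (this.trans (num_up hk ab u v).1)
    refine (mul_le_mul_of_nonneg_left z1 (by positivity)).trans ?_
    rw [Nat.cast_add, mul_add, Real.exp_add, one_div_pow (4 : ℝ) (mtf a b u v)]
    field_simp
    gcongr
    norm_num
  · refine (mul_le_mul_of_nonneg_right z1 (Real.exp_pos _).le).trans_eq ?_
    rw [mul_assoc, ← Real.exp_add, s]
    congr 2
    push_cast
    ring

theorem sm (hP : 64 * (n + 2) ≤ P) : (n : ℝ) ^ 2 / P ^ 6 ≤ 1 / 100 * (1 / P) ∧ (1 : ℝ) / P ≤ 1 / 128 := by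
  have p1 : (64 * (n + 2) : ℝ) ≤ P := by exact_mod_cast hP
  have m0 : (0 : ℝ) ≤ n := n.cast_nonneg
  have p0 : (0 : ℝ) < P := by linarith
  refine ⟨?_, one_div_le_one_div_of_le (by norm_num) (by linarith)⟩
  have a : (P : ℝ) ^ 2 ≤ P ^ 5 := pow_le_pow_right₀ (by linarith) (by norm_num)
  rw [one_div_mul_one_div, div_le_div_iff₀ (by positivity) (by positivity), pow_succ _ 5]
  nlinarith [mul_le_mul_of_nonneg_right (show 100 * (n : ℝ) ^ 2 ≤ P ^ 5 by nlinarith) p0.le]

theorem Inv.raise (h : Inv P cp j k e false) (hP : 64 * (n + 2) ≤ P) (hZ : 0 < ∑ T, wt k T)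
    (hk : ∀ u v, k' u v = k u v + mtf a b u v) (ab : a ≠ b) (hx : |num k a b / (∑ T, wt k T) - x| ≤ 3 / P ^ 11)
    (x1 : x ≤ 1) (ge : 23 / P ^ 6 * ∑ T, wt k T ≤ num k a b) (c1 : k a b < cp a b) (c2 : cp a b = cp b a)
    (all : ∀ u v, u ≠ v → 1 / P ^ 6 * ∑ T, wt k T ≤ num k u v) :
    Inv P cp (j + 1) k' (e * (1 - 3 / 4 * x)) false := by
  have z := (Z_up hk ab).2
  have c0 : (0 : ℝ) ≤ 1 / P ^ 6 := by positivity
  have n0 := num_nonneg k a b
  have n1 := (div_le_one hZ).2 (num_le k a b)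
  refine ⟨fun u v => ?_, fun u => ?_, fun u v => ?_, fun u v => ?_, ap_step
    (y := 1 - 3 / 4 * (num k a b / ∑ T, wt k T)) h.ap (by rw [z]; field_simp) ?_ (by linarith) (by linarith),
    ⟨fun _ _ => 2, fun _ _ => le_rfl, fun u v c => ?_⟩, fun _ => le_trans ?_ (h.pot rfl), nofun⟩
  · have := h.sym u v
    simp only [hk, mtf]
    grind
  · have := h.dg u
    simp only [hk, mtf]
    grind
  · have := h.lb u v
    simp only [hk]
    omega
  · have := h.ub u v
    have := h.sym a b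
    simp only [hk, mtf]
    grind
  · rw [sub_sub_sub_cancel_left, ← mul_sub, abs_mul, abs_sub_comm, abs_of_pos (by norm_num : (0 : ℝ) < 3 / 4)]
    linarith [show (9 : ℝ) / P ^ 11 = 3 * (3 / P ^ 11) by ring, abs_nonneg (num k a b / (∑ T, wt k T) - x)]
  · have a1 : Real.exp (5 / P ^ 6 * (∑ u : Fin n, ∑ v : Fin n, 2 : ℕ)) ≤ 4 / 3 := by
      refine (Real.exp_le_exp.2 ?_).trans ((Real.exp_bound_div_one_sub_of_interval (x := 1 / 4) (by norm_num)
        (by norm_num)).trans_eq (by norm_num))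
      simp only [sum_const, card_univ, Fintype.card_fin, smul_eq_mul]
      push_cast
      linarith [(sm hP).1, (sm hP).2, show (5 : ℝ) / P ^ 6 * (n * (n * 2)) = 10 * (n ^ 2 / P ^ 6) by ring]
    have a2 := (all u v c).trans (num_up hk ab u v).2
    have a3 := mul_le_mul a1 (show ∑ T, wt k' T ≤ ∑ T, wt k T by linarith)
      (sum_nonneg fun T _ => wt_nonneg _ _) (by norm_num)
    rw [div_eq_mul_one_div (3 : ℝ)]
    nlinarith [mul_le_mul_of_nonneg_left a3 c0]
  · have z1 : ∑ T, wt k' T ≤ (∑ T, wt k T) * Real.exp (-(17 / P ^ 6)) := by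
      nlinarith [mul_le_mul_of_nonneg_left (Real.add_one_le_exp (-(17 / P ^ 6))) hZ.le,
        show (17 : ℝ) / P ^ 6 = 17 * (1 / P ^ 6) by ring, show (23 : ℝ) / P ^ 6 = 23 * (1 / P ^ 6) by ring,
        mul_nonneg c0 hZ.le]
    refine (mul_le_mul_of_nonneg_right z1 (Real.exp_pos _).le).trans_eq ?_
    rw [mul_assoc, ← Real.exp_add, sum_up hk ab]
    congr 2
    push_cast
    ring

theorem nn_le (n : ℕ) : (n : ℝ) ^ n ≤ 2 ^ (n * n) := by
  rw [pow_mul]
  exact pow_le_pow_left₀ n.cast_nonneg (by exact_mod_cast Nat.lt_two_pow_self.le) n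

theorem Inv.stop (h : Inv P cp (P ^ 9) k e false) (hP : 64 * (n + 2) ≤ P) (hn : 2 ≤ n) (hZ : 0 < ∑ T, wt k T)
    (hc : ∀ a b, cp a b ≤ P ^ 9 + P ^ 2) : False := by
  obtain ⟨⟨a, b⟩, h1, h2⟩ := exists_min_image (univ : Finset (Fin n)).offDiag (fun p => k p.1 p.2)
    ⟨(⟨0, by omega⟩, ⟨1, hn⟩), by simp⟩
  have ab : a ≠ b := (mem_offDiag.1 h1).2.2
  have p1 : (64 * (n + 2) : ℝ) ≤ P := by exact_mod_cast hP
  have m0 : (0 : ℝ) ≤ n := n.cast_nonneg
  have p0 : (0 : ℝ) < P := by linarith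
  obtain ⟨T, -, hT⟩ := exists_lt_of_sum_lt (f := fun _ => 0) (s := univ)
    (sum_const_zero.trans_lt ((mul_pos (by positivity) hZ).trans_le (h.marg ab)))
  have t : PM T := by
    by_contra c
    simp [wt, c] at hT
  have t2 : T a = b := by
    by_contra c
    simp [c] at hT
  set D := P ^ 9 - k a b with hD
  have a1 : En k T + D ≤ n * P ^ 9 + n * P ^ 2 := by
    have := sum_le_card_nsmul univ (fun u => k u (T u) + if u = a then D else 0) (P ^ 9 + P ^ 2) fun u _ => by
      have := (h.ub u (T u)).trans (hc _ _)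
      split_ifs with c
      · rw [c, t2] at this ⊢
        omega
      · omega
    simpa [sum_add_distrib, En, mul_add] using this
  have a2 : n ^ 2 * P ^ 9 ≤ ∑ u, ∑ v, k u v + n ^ 2 * D := by
    have := card_nsmul_le_sum univ (fun p : Fin n × Fin n => k p.1 p.2 + D) (P ^ 9) fun p _ => by
      by_cases c : p.1 = p.2
      · rw [c, h.dg]
        omega
      · have := h2 p (by simpa using c)
        dsimp only at this
        omega
    simpa [sum_add_distrib, Fintype.sum_prod_type, sq] using this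
  have a3 : (1 / 2 : ℝ) ^ (n * P ^ 9) * (1 / 2) ^ (n * P ^ 2) * 2 ^ D ≤ ∑ T, wt k T := by
    refine le_trans ?_ (single_le_sum (fun T _ => wt_nonneg k T) (mem_univ T))
    rw [← pow_add, wt_pm t, ← le_div_iff₀ (by positivity), div_eq_mul_one_div (_ ^ _), ← one_div_pow, ← pow_add]
    exact pow_le_pow_of_le_one (by norm_num) (by norm_num) a1
  have a4 := (mul_le_mul_of_nonneg_right a3 (Real.exp_pos _).le).trans (h.pot rfl)
  have a5 : Real.exp (D * (1 / 2)) ≤ 2 ^ D := by
    rw [Real.exp_nat_mul]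
    exact pow_le_pow_left₀ (Real.exp_pos _).le ((Real.exp_bound_div_one_sub_of_interval (by norm_num)
      (by norm_num)).trans_eq (by norm_num)) _
  have a6 : Real.exp (-(n * P ^ 2 : ℕ)) ≤ (1 / 2) ^ (n * P ^ 2) := by
    rw [Real.exp_neg, one_div, inv_pow]
    exact inv_anti₀ (by positivity) (two_le_exp _)
  rw [mul_assoc, mul_assoc, mul_right_comm, mul_comm _ ((1 / 2 : ℝ) ^ _), mul_le_mul_iff_right₀ (by positivity)] at a4
  have a7 := (mul_le_mul a6 (mul_le_mul_of_nonneg_right a5 (Real.exp_pos _).le) (by positivity)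
    (by positivity)).trans (a4.trans (mul_le_mul_of_nonneg_right ((nn_le n).trans (two_le_exp _))
    (Real.exp_pos _).le))
  simp only [← Real.exp_add, Real.exp_le_exp] at a7
  have a8 : (n ^ 2 * P ^ 9 : ℝ) ≤ (∑ u, ∑ v, k u v : ℕ) + n ^ 2 * D := by exact_mod_cast a2
  have a9 := mul_le_mul_of_nonneg_left a8 (show (0 : ℝ) ≤ 13 / 2 / P ^ 6 by positivity)
  have b1 := mul_le_mul_of_nonneg_right (show (n : ℝ) ^ 2 / P ^ 6 ≤ 1 / 13 by linarith [(sm hP).1, (sm hP).2])
    (Nat.cast_nonneg (α := ℝ) D)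
  rw [Nat.cast_pow, show (4 : ℝ) / P ^ 6 * P ^ 9 = 4 * P ^ 3 by field_simp, Nat.cast_mul, Nat.cast_mul,
    Nat.cast_pow] at a7
  have b2 : 13 / 2 / (P : ℝ) ^ 6 * (n ^ 2 * D) = 13 / 2 * (n ^ 2 / P ^ 6 * D) := by ring
  have b3 : (n : ℝ) * n ≤ n * P ^ 2 := mul_le_mul_of_nonneg_left (by nlinarith) m0
  have b4 := mul_le_mul_of_nonneg_right (show (n : ℝ) ≤ P by linarith) (sq_nonneg (P : ℝ))
  nlinarith [pow_pos p0 3]

open Classical in
theorem Inv.last (h : Inv P cp j k e true) (hP : 64 * (n + 2) ≤ P) (hj : j ≤ P ^ 9) {R : Fin n → Fin n → Prop}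
    (hc : ∀ a b, cp a b = P ^ 9 + if R a b then 0 else P ^ 2) {ε : ℝ} (e1 : ε ≤ 1) (e2 : 64 ≤ ε * P) :
    (1 - ε) * (univ.filter fun T => PM T ∧ ∀ u, R u (T u)).card ≤ (if 2 * e < 1 then 0 else e) ∧
      (if 2 * e < 1 then 0 else e) ≤ (1 + ε) * (univ.filter fun T => PM T ∧ ∀ u, R u (T u)).card := by
  have p1 : (64 * (n + 2) : ℝ) ≤ P := by exact_mod_cast hP
  have m0 : (0 : ℝ) ≤ n := n.cast_nonneg
  have p0 : (0 : ℝ) < P := by linarith
  have w : ∀ T, PM T → ∀ r, n * P ^ 9 + r ≤ En k T → wt k T * 2 ^ (n * P ^ 9) ≤ (1 / 2) ^ r := fun T t r hr => by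
    rw [wt_pm t, ← le_div_iff₀ (by positivity), div_eq_mul_one_div (_ ^ _), ← one_div_pow, ← pow_add, add_comm]
    exact pow_le_pow_of_le_one (by norm_num) (by norm_num) hr
  have a1 : ((univ.filter fun T => PM T ∧ ∀ u, R u (T u)).card : ℝ) ≤ (∑ T, wt k T) * 2 ^ (n * P ^ 9) := by
    rw [card_filter, Nat.cast_sum, sum_mul]
    refine sum_le_sum fun T _ => ?_
    split_ifs with c
    · rw [wt_pm c.1, one_div_pow, one_div_mul_eq_div, Nat.cast_one, one_le_div (by positivity)]
      refine pow_le_pow_right₀ one_le_two ?_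
      simpa [En] using sum_le_card_nsmul univ (fun u => k u (T u)) (P ^ 9) fun u _ => by
        simpa [hc, c.2 u] using h.ub u (T u)
    · exact Nat.cast_zero.trans_le (mul_nonneg (wt_nonneg _ _) (by positivity))
  have a2 : ∀ T, wt k T * 2 ^ (n * P ^ 9) ≤ (if PM T ∧ ∀ u, R u (T u) then 1 else 0) + (1 / 2) ^ P ^ 2 +
      ∑ p : Fin n × Fin n, if p.1 ≠ p.2 ∧ k p.1 p.2 ≠ cp p.1 p.2 then
        (wt k T * if T p.1 = p.2 then 1 else 0) * 2 ^ (n * P ^ 9) else 0 := fun T => by
    have nn : ∀ p ∈ (univ : Finset (Fin n × Fin n)), 0 ≤ if p.1 ≠ p.2 ∧ k p.1 p.2 ≠ cp p.1 p.2 then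
        (wt k T * if T p.1 = p.2 then 1 else 0) * 2 ^ (n * P ^ 9) else 0 := fun p _ => by
      have := wt_nonneg k T
      positivity
    have n1 := sum_nonneg nn
    have n2 : (0 : ℝ) ≤ (1 / 2) ^ P ^ 2 := by positivity
    have n3 : (0 : ℝ) ≤ if PM T ∧ ∀ u, R u (T u) then 1 else 0 := by positivity
    by_cases t : PM T
    swap
    · rw [wt, if_neg t, zero_mul]
      positivity
    by_cases c : ∀ u, k u (T u) = cp u (T u)
    · have b : En k T = n * P ^ 9 + ∑ u, if R u (T u) then 0 else P ^ 2 := by simp [En, c, hc, sum_add_distrib]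
      by_cases f : ∀ u, R u (T u)
      · rw [if_pos ⟨t, f⟩]
        linarith [w T t 0 (by omega)]
      · obtain ⟨u, f⟩ := not_forall.1 f
        have := single_le_sum (f := fun u => if R u (T u) then 0 else P ^ 2) (fun _ _ => Nat.zero_le _) (mem_univ u)
        rw [if_neg f] at this
        linarith [w T t (P ^ 2) (by omega)]
    · obtain ⟨u, c⟩ := not_forall.1 c
      have := single_le_sum nn (mem_univ (u, T u))
      rw [if_pos ⟨(t u).2.symm, c⟩, if_pos rfl, mul_one] at this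
      linarith
  have a3 := sum_le_sum fun T (_ : T ∈ univ) => a2 T
  rw [sum_add_distrib, sum_add_distrib, sum_boole, sum_comm, ← sum_mul, sum_const, card_univ, Fintype.card_fun,
    Fintype.card_fin, nsmul_eq_mul, Nat.cast_pow] at a3
  have a4 := sum_le_card_nsmul univ (fun p : Fin n × Fin n => ∑ T, if p.1 ≠ p.2 ∧ k p.1 p.2 ≠ cp p.1 p.2 then
      (wt k T * if T p.1 = p.2 then 1 else 0) * 2 ^ (n * P ^ 9) else 0)
      (25 / P ^ 6 * (∑ T, wt k T) * 2 ^ (n * P ^ 9)) fun p _ => by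
    split_ifs with c
    · rw [← sum_mul]
      exact mul_le_mul_of_nonneg_right ((h.fin rfl _ _ c.1).resolve_left c.2) (by positivity)
    · have := sum_nonneg fun T (_ : T ∈ univ) => wt_nonneg k T
      rw [sum_const_zero]
      positivity
  rw [card_univ, Fintype.card_prod, Fintype.card_fin, nsmul_eq_mul, Nat.cast_mul] at a4
  have a5 : (n : ℝ) ^ n * (1 / 2) ^ P ^ 2 ≤ 1 / P := by
    rw [one_div_pow, mul_one_div, div_le_div_iff₀ (by positivity) p0, one_mul]
    refine (mul_le_mul (nn_le n) (show (P : ℝ) ≤ 2 ^ P by exact_mod_cast Nat.lt_two_pow_self.le) p0.le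
      (by positivity)).trans ?_
    rw [← pow_add]
    exact pow_le_pow_right₀ one_le_two (by nlinarith)
  have a6 := h.ap.mono (e' := 1 / P) (by
    refine (mul_le_mul_of_nonneg_left (show (j : ℝ) ≤ P ^ 9 by exact_mod_cast hj) (by positivity)).trans ?_
    rw [show (36 : ℝ) / P ^ 11 * P ^ 9 = 36 / P / P by field_simp]
    gcongr
    rw [div_le_one p0]
    linarith)
  have a7 : 64 * (1 / P) ≤ ε := by rwa [mul_one_div, div_le_iff₀ p0]
  obtain ⟨s1, s2⟩ := sm hP
  obtain ⟨b1, b2, b3, b4⟩ := a6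
  have a8 : (∑ T, wt k T) * 2 ^ (n * P ^ 9) * (1 - 1 / P) ≤
      (univ.filter fun T => PM T ∧ ∀ u, R u (T u)).card + 1 / P := by
    nlinarith [mul_le_mul_of_nonneg_right s1 b1, show (n : ℝ) * n * (25 / P ^ 6 * (∑ T, wt k T) *
      2 ^ (n * P ^ 9)) = 25 * (n ^ 2 / P ^ 6 * ((∑ T, wt k T) * 2 ^ (n * P ^ 9))) by ring,
      mul_nonneg b1 (one_div_pos.2 p0).le]
  have q0 := one_div_pos.2 p0
  generalize (∑ T, wt k T) * 2 ^ (n * P ^ 9) = Z at *
  generalize (1 : ℝ) / P = q at *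
  rcases Nat.eq_zero_or_pos (univ.filter fun T => PM T ∧ ∀ u, R u (T u)).card with z | z
  · rw [z, Nat.cast_zero] at a8 ⊢
    rw [if_pos (by nlinarith)]
    simp
  · have : (1 : ℝ) ≤ (univ.filter fun T => PM T ∧ ∀ u, R u (T u)).card := by exact_mod_cast z
    generalize ((univ.filter fun T => PM T ∧ ∀ u, R u (T u)).card : ℝ) = N at *
    rw [if_neg (by nlinarith)]
    have c1 : Z ≤ (1 + 4 * q) * N := by nlinarith
    have c2 : e ≤ (1 + 2 * q) * Z := by nlinarith
    constructor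
    · nlinarith
    · nlinarith [mul_le_mul_of_nonneg_left c1 (show 0 ≤ 1 + 2 * q by linarith)]

open Classical in
theorem count (r : ℕ) : ∀ S : Finset (Fin n), S.card = 2 * r →
    (univ.filter fun T : Fin n → Fin n => (∀ u ∈ S, T (T u) = u ∧ T u ≠ u) ∧ ∀ u ∉ S, T u = u).card =
      ∏ i ∈ range r, (2 * i + 1) ∧ ∀ a ∈ S, ∀ b ∈ S, a ≠ b → (2 * r - 1) *
    (univ.filter fun T : Fin n → Fin n => ((∀ u ∈ S, T (T u) = u ∧ T u ≠ u) ∧ ∀ u ∉ S, T u = u) ∧ T a = b).card =
      ∏ i ∈ range r, (2 * i + 1) := by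
  induction r with
  | zero =>
    intro S h
    rw [card_eq_zero.1 h]
    refine ⟨card_eq_one.2 ⟨id, ?_⟩, by simp⟩
    ext T
    simp [funext_iff]
  | succ r ih =>
    intro S h
    have key : ∀ a ∈ S, ∀ b ∈ S, a ≠ b → (univ.filter fun T : Fin n → Fin n =>
        ((∀ u ∈ S, T (T u) = u ∧ T u ≠ u) ∧ ∀ u ∉ S, T u = u) ∧ T a = b).card = ∏ i ∈ range r, (2 * i + 1) := by
      intro a ha b hb c
      rw [← (ih ((S.erase a).erase b) (by
        rw [card_erase_of_mem (by simp [hb, c.symm]), card_erase_of_mem ha]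
        omega)).1]
      refine card_nbij' (fun T u => if u = a ∨ u = b then u else T u)
        (fun T u => if u = a then b else if u = b then a else T u) (fun T t => ?_) (fun T t => ?_)
        (fun T t => funext fun u => ?_) fun T t => funext fun u => ?_ <;>
        simp only [coe_filter, mem_univ, true_and, Set.mem_setOf_eq, mem_erase] at *
      · have := t.1.1 a ha
        refine ⟨fun u hu => ?_, fun u hu => ?_⟩
        · have := t.1.1 u
          grind
        · have := t.1.2 u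
          grind
      · have := t.2 a
        have := t.2 b
        refine ⟨⟨fun u hu => ?_, fun u hu => ?_⟩, rfl⟩
        · have := t.1 u
          grind
        · have := t.2 u
          grind
      · have := t.1.1 a ha
        grind
      · have := t.2 a
        have := t.2 b
        grind
    obtain ⟨a, ha⟩ := card_pos.1 (show 0 < S.card by omega)
    refine ⟨?_, fun a ha b hb c => by rw [key a ha b hb c, prod_range_succ, mul_comm]; rfl⟩
    rw [card_eq_sum_card_fiberwise (f := fun T => T a) (t := S.erase a) fun T t => by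
      simp only [coe_filter, mem_univ, true_and, Set.mem_setOf_eq, coe_erase, Set.mem_diff, mem_coe,
        Set.mem_singleton_iff] at *
      have := t.1 a ha
      have := t.2 (T a)
      grind]
    simp only [filter_filter]
    rw [sum_congr rfl fun b hb => key a ha b (mem_of_mem_erase hb) (ne_of_mem_erase hb).symm, sum_const,
      card_erase_of_mem ha, h, prod_range_succ, smul_eq_mul, mul_comm]
    rfl

theorem inv_zero (hP : 64 * (n + 2) ≤ P) {r : ℕ} (hn : n = 2 * r) (hc : ∀ a b, P ^ 9 ≤ cp a b) :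
    Inv P cp 0 (fun _ _ : Fin n => P ^ 9) (∏ i ∈ range r, (2 * i + 1) : ℕ) false := by
  classical
  obtain ⟨c1, c2⟩ := count r (univ : Finset (Fin n)) (by simpa using hn)
  simp only [mem_univ, forall_true_left, not_true, IsEmpty.forall_iff, implies_true, and_true] at c1 c2
  replace c1 : (univ.filter fun T : Fin n → Fin n => PM T).card = ∏ i ∈ range r, (2 * i + 1) := by
    convert c1 using 2
    ext
    rw [mem_filter, mem_filter]
    rfl
  replace c2 : ∀ a b, a ≠ b → (2 * r - 1) * (univ.filter fun T : Fin n → Fin n => PM T ∧ T a = b).card =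
      ∏ i ∈ range r, (2 * i + 1) := fun a b h => by
    convert c2 a b h using 3
    ext
    rw [mem_filter, mem_filter]
    rfl
  have w : ∀ T, wt (fun _ _ : Fin n => P ^ 9) T = (1 / 2) ^ (n * P ^ 9) * if PM T then 1 else 0 := fun T => by
    simp [wt, En]
  have z : ∑ T, wt (fun _ _ : Fin n => P ^ 9) T = (1 / 2) ^ (n * P ^ 9) * (∏ i ∈ range r, (2 * i + 1) : ℕ) := by
    simp only [w, ← mul_sum, sum_boole, ← c1]
  refine ⟨fun _ _ => rfl, fun _ => rfl, fun _ _ => le_rfl, hc, ?_, ⟨fun _ _ => 0, by simp, fun a b ab => ?_⟩,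
    fun _ => ?_, nofun⟩
  · rw [z, mul_right_comm, ← mul_pow]
    simp [Ap]
    positivity
  · simp only [num, w, mul_assoc, ← mul_sum, z, ← c2 a b ab, ite_zero_mul_ite_zero, one_mul, sum_boole, c1,
      pow_zero, sum_const_zero, Nat.cast_zero, mul_zero, Real.exp_zero]
    rw [mul_left_comm, Nat.cast_mul, ← mul_assoc (3 / _)]
    refine mul_le_mul_of_nonneg_left (mul_le_of_le_one_left (by positivity) ?_) (by positivity)
    have p0 : (0 : ℝ) < P := by exact_mod_cast (by omega : 0 < P)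
    rw [div_mul_eq_mul_div, div_le_one (by positivity)]
    exact_mod_cast le_trans (by omega) (Nat.le_self_pow (by norm_num) P)
  · rw [z, ← c1, mul_comm ((1 / 2 : ℝ) ^ _)]
    simp only [sum_const, card_univ, Fintype.card_fin, smul_eq_mul, Nat.cast_zero, mul_zero, add_zero,
      ← mul_assoc, ← sq]
    push_cast
    rw [mul_assoc (13 / 2 / _)]
    gcongr
    exact_mod_cast (card_le_univ _).trans_eq (by simp)

end Vale.Agent.P308
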