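import Vale.Agent.P308.Hyp
import Vale.Agent.P317.Batch

/-! The Metropolis chain with several switches per proposal. -/

namespace Vale.Agent.P308

open Finset Vale.Agent.P337 Vale.Agent.P317

theorem decay {Ω : Type} [Fintype Ω] {π : Ω → ℝ} {K : Ω → Ω → ℝ} {P : (Ω → ℝ) → Ω → ℝ} {γ : ℝ}
    (nn : ∀ T, 0 ≤ π T) (K0 : ∀ T U, 0 ≤ K T U) (row : ∀ T, ∑ U, K T U ≤ 1 / 2)
    (rev : ∀ T U, π T * K T U = π U * K U T) (hP : ∀ h T, P h T = h T + ∑ U, K T U * (h U - h T))
    (po : ∀ g : Ω → ℝ, ∑ T, π T * g T = 0 → γ * ∑ T, π T * g T ^ 2 ≤ ∑ T, ∑ U, π T * K T U * (g T - g U) ^ 2)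
    (hZ : 0 < ∑ T, π T) (g : Ω → ℝ) (hg : ∀ T, 0 ≤ g T ∧ g T ≤ 1) (T : Ω) (t : ℕ) :
    π T * (P^[t] g T - (∑ T, π T * g T) / ∑ T, π T) ^ 2 ≤ Real.exp (-(t * (γ / 2))) * ∑ T, π T := by
  have stat : ∀ h : Ω → ℝ, ∑ T, π T * ∑ U, K T U * (h U - h T) = 0 := fun h => by
    simp only [mul_sum, mul_sub, sum_sub_distrib, ← mul_assoc]
    rw [sum_comm, sub_eq_zero]
    exact sum_congr rfl fun T _ => sum_congr rfl fun U _ => by rw [rev]
  set θ := (∑ T, π T * g T) / ∑ T, π T with hθ
  have step : ∀ g : Ω → ℝ, ∑ T, π T * (g T - θ) = 0 → ∑ T, π T * (P g T - θ) = 0 ∧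
      ∑ T, π T * (P g T - θ) ^ 2 ≤ (1 - γ / 2) * ∑ T, π T * (g T - θ) ^ 2 := fun g h0 => by
    constructor
    · simp only [hP, add_sub_right_comm, mul_add, sum_add_distrib, stat, h0, add_zero]
    have pt : ∀ T, (P g T - θ) ^ 2 ≤ (g T - θ) ^ 2 + ∑ U, K T U * ((g U - θ) ^ 2 - (g T - θ) ^ 2) -
        1 / 2 * ∑ U, K T U * (g U - g T) ^ 2 := fun T => by
      have a1 := sum_sq_le_sum_mul_sum_of_sq_le_mul univ (r := fun U => K T U * (g U - g T)) (f := K T)
        (g := fun U => K T U * (g U - g T) ^ 2) (fun _ _ => K0 _ _)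
        (fun _ _ => mul_nonneg (K0 _ _) (sq_nonneg _)) fun _ _ => le_of_eq (by ring)
      have a3 : ∑ U, K T U * ((g U - θ) ^ 2 - (g T - θ) ^ 2) =
          2 * (g T - θ) * ∑ U, K T U * (g U - g T) + ∑ U, K T U * (g U - g T) ^ 2 := by
        rw [mul_sum, ← sum_add_distrib]
        exact sum_congr rfl fun _ _ => by ring
      have a4 : 0 ≤ ∑ U, K T U * (g U - g T) ^ 2 := sum_nonneg fun _ _ => mul_nonneg (K0 _ _) (sq_nonneg _)
      rw [hP, a3]
      nlinarith [mul_le_mul_of_nonneg_right (row T) a4]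
    have a1 := sum_le_sum fun T (_ : T ∈ univ) => mul_le_mul_of_nonneg_left (pt T) (nn T)
    simp only [mul_sub (π _), mul_add, sum_add_distrib, sum_sub_distrib, mul_left_comm (π _), ← mul_sum,
      stat fun T => (g T - θ) ^ 2] at a1
    have a2 := po (fun T => g T - θ) h0
    rw [show ∑ T, ∑ U, π T * K T U * (g T - θ - (g U - θ)) ^ 2 = ∑ T, π T * ∑ U, K T U * (g U - g T) ^ 2 from
      sum_congr rfl fun T _ => by rw [mul_sum]; exact sum_congr rfl fun U _ => by ring] at a2
    linarith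
  have t0 : 0 ≤ θ := div_nonneg (sum_nonneg fun T _ => mul_nonneg (nn T) (hg T).1) hZ.le
  have t1 : θ ≤ 1 := (div_le_one hZ).2 (sum_le_sum fun T _ => mul_le_of_le_one_right (nn T) (hg T).2)
  have key : ∑ T, π T * (P^[t] g T - θ) = 0 ∧
      ∑ T, π T * (P^[t] g T - θ) ^ 2 ≤ Real.exp (-(t * (γ / 2))) * ∑ T, π T := by
    induction t with
    | zero =>
      refine ⟨?_, ?_⟩
      · simp only [Function.iterate_zero, id, mul_sub, sum_sub_distrib, ← sum_mul, hθ]
        field_simp
        ring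
      · simp only [Function.iterate_zero, id, Nat.cast_zero, zero_mul, neg_zero, Real.exp_zero, one_mul]
        exact sum_le_sum fun T _ => mul_le_of_le_one_right (nn T) (by nlinarith [hg T])
    | succ t ih =>
      rw [Function.iterate_succ_apply']
      obtain ⟨a, b⟩ := step _ ih.1
      refine ⟨a, b.trans ?_⟩
      rw [Nat.cast_succ, add_mul, neg_add, Real.exp_add, mul_comm (Real.exp _), mul_assoc, one_mul]
      exact mul_le_mul (by linarith [Real.add_one_le_exp (-(γ / 2))]) ih.2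
        (sum_nonneg fun T _ => mul_nonneg (nn T) (sq_nonneg _)) (Real.exp_pos _).le
  exact (single_le_sum (fun T _ => mul_nonneg (nn T) (sq_nonneg (P^[t] g T - θ))) (mem_univ T)).trans key.2

variable {n : ℕ}

/-- A switch. -/
def cj (a b : Fin n) (T : Fin n → Fin n) (u : Fin n) : Fin n := Equiv.swap a b (T (Equiv.swap a b u))

/-- A random switch. -/
def p1 (m : ℕ) (w : List Bool) (T : Fin n → Fin n) : Fin n → Fin n :=
  if h : ofBits (w.take m) < n ∧ ofBits ((w.drop m).take m) < n then cj ⟨_, h.1⟩ ⟨_, h.2⟩ T else T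

/-- The proposal operator. -/
noncomputable def Pm (m B : ℕ) (φ : (Fin n → Fin n) → ℝ) (T : Fin n → Fin n) : ℝ :=
  Ex (m + (m + B)) fun w => φ (p1 m w T)

/-- Accept or reject. -/
def ac (k : Fin n → Fin n → ℕ) (z : List Bool) (T U : Fin n → Fin n) : Fin n → Fin n :=
  bif (z.take (En k U - En k T + 1)).all (!·) then U else T

/-- The transition operator. -/
noncomputable def tr (k : Fin n → Fin n → ℕ) (m B s : ℕ) (h : (Fin n → Fin n) → ℝ) (T : Fin n → Fin n) : ℝ :=
  (Pm m B)^[s] (fun U => Ex (m + (m + B)) fun z => h (ac k z T U)) T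

theorem p1_p1 (m : ℕ) (w : List Bool) (T : Fin n → Fin n) : p1 m w (p1 m w T) = T := by
  unfold p1
  split_ifs
  · funext u
    simp [cj]
  · rfl

theorem cj_pm {T : Fin n → Fin n} (h : PM T) (a b : Fin n) : PM (cj a b T) := fun u =>
  ⟨by simp [cj, (h _).1], fun e => (h (Equiv.swap a b u)).2 ((Equiv.swap a b).injective (e.trans (Equiv.swap_apply_self _ _ _).symm))⟩

theorem p1_pm (m : ℕ) (w : List Bool) {T : Fin n → Fin n} (h : PM T) : PM (p1 m w T) := by
  unfold p1
  split_ifs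
  exacts [cj_pm h _ _, h]

theorem fnl_P {Ba : (Fin n → Fin n) → Prop} {m : ℕ} (h : ∀ w T, Ba T → Ba (p1 m w T)) (B s : ℕ) :
    ∀ T, Ba T → Fnl Ba fun φ => (Pm m B)^[s] φ T := by
  induction s with
  | zero => exact fun T h => Fnl.pure h
  | succ s ih =>
    intro T hT
    simp only [Function.iterate_succ_apply']
    exact (fnl_Ex _).bind fun w _ => ih _ (h w T hT)

theorem fnl_tr (k : Fin n → Fin n → ℕ) (m B s t : ℕ) : ∀ T, PM T → Fnl PM fun g => (tr k m B s)^[t] g T := by
  induction t with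
  | zero => exact fun T h => Fnl.pure h
  | succ t ih =>
    intro T h
    simp only [Function.iterate_succ_apply']
    refine (fnl_P (fun w _ => p1_pm m w) B s T h).bind fun U hU => (fnl_Ex _).bind fun z _ => ih _ ?_
    unfold ac
    cases (List.take _ z).all (!·)
    exacts [h, hU]

/-- The proposal matrix. -/
noncomputable def Mx (m B : ℕ) : Matrix (Fin n → Fin n) (Fin n → Fin n) ℝ :=
  fun T U => Pm m B (fun W => if W = U then 1 else 0) T

theorem Pm_eq (m B s : ℕ) (φ : (Fin n → Fin n) → ℝ) : (Pm m B)^[s] φ = (Mx m B ^ s).mulVec φ := by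
  induction s with
  | zero => simp
  | succ s ih =>
    rw [Function.iterate_succ_apply', ih, pow_succ', ← Matrix.mulVec_mulVec]
    generalize (Mx m B ^ s).mulVec φ = ψ
    funext T
    have f := fnl_P (Ba := fun _ => True) (m := m) (fun _ _ _ => trivial) B 1 T trivial
    have := f.sum univ fun U W => ψ U * if W = U then 1 else 0
    simp only [f.smul] at this
    simpa [Matrix.mulVec, dotProduct, Mx, mul_comm] using this

theorem Mx_pow (m B s : ℕ) (T U : Fin n → Fin n) :
    (Mx m B ^ s) T U = (Pm m B)^[s] (fun W => if W = U then 1 else 0) T := by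
  simp [Pm_eq, Matrix.mulVec, dotProduct]

theorem Mx_nonneg (m B s : ℕ) (T U : Fin n → Fin n) : 0 ≤ (Mx m B ^ s) T U := by
  have f := fnl_P (Ba := fun _ => True) (m := m) (fun _ _ _ => trivial) B s T trivial
  exact Mx_pow m B s T U ▸ (f.const 0).ge.trans (f.mono _ _ fun _ _ => by positivity)

theorem Mx_symm (m B s : ℕ) (T U : Fin n → Fin n) : (Mx m B ^ s) T U = (Mx m B ^ s) U T :=
  (Matrix.IsSymm.pow (A := Mx m B) (Matrix.IsSymm.ext fun T U => Ex_congr _ fun w _ => if_congr
    ⟨fun h => by rw [← h, p1_p1], fun h => by rw [← h, p1_p1]⟩ rfl rfl) s).apply U T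

theorem Mx_cj {m : ℕ} (hm : n ≤ 2 ^ m) (B : ℕ) (a b : Fin n) (T : Fin n → Fin n) :
    (1 / 4) ^ m ≤ Mx m B T (cj a b T) := by
  have sg : ∀ (φ : ℕ → ℝ) (a : Fin n), (∀ i, 0 ≤ φ i) → φ a / 2 ^ m ≤ Ex m fun u => φ (ofBits u) :=
    fun φ a h => by
      rw [Ex_bits]
      exact div_le_div_of_nonneg_right (single_le_sum (fun i _ => h i) (mem_range.2 (a.2.trans_le hm)))
        (by positivity)
  have h1 := sg (fun i => Ex m fun v => if i = a ∧ ofBits v = b then 1 else 0) a fun i =>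
    (Ex_const _ 0).ge.trans (Ex_mono _ fun _ _ => by positivity)
  have h2 := sg (fun j => if (a : ℕ) = a ∧ j = b then 1 else 0) b fun i => by positivity
  rw [if_pos ⟨rfl, rfl⟩] at h2
  refine le_trans (le_of_eq ?_) (((div_le_div_of_nonneg_right h2 (by positivity)).trans h1).trans ?_)
  · rw [div_div, ← mul_pow, one_div_pow]
    norm_num
  rw [Mx, Pm, Ex_add]
  refine Ex_mono _ fun u hu => ?_
  rw [Ex_add]
  refine Ex_mono _ fun v hv => (Ex_const B _).ge.trans (Ex_mono _ fun z _ => ?_)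
  split_ifs with c d
  · rfl
  · simp [p1, List.take_left' hu, List.drop_left' hu, List.take_left' hv, c] at d
  · norm_num
  · rfl

theorem Mx_ge {m : ℕ} (hm : n ≤ 2 ^ m) (B : ℕ) (o : Fin n) {U : Fin n → Fin n} (hU : PM U) (s : ℕ) :
    ∀ T, PM T → df T U ≤ s → ((1 / 4) ^ m) ^ s ≤ (Mx m B ^ s) T U := by
  induction s with
  | zero =>
    intro T _ h
    rw [show T = U from funext fun u => by
      simpa using filter_eq_empty_iff.1 (card_eq_zero.1 (Nat.le_zero.1 h)) (mem_univ u)]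
    simp
  | succ s ih =>
    intro T hT h
    obtain ⟨a, b, e⟩ : ∃ a b, df (cj a b T) U ≤ s := by
      by_cases c : df T U ≤ s
      · exact ⟨o, o, by rwa [show cj o o T = T from funext fun u => by simp [cj]]⟩
      obtain ⟨a, ha⟩ := card_pos.1 (show 0 < df T U by omega)
      refine ⟨T a, U a, Nat.le_of_lt_succ ((card_lt_card ⟨fun u hu => ?_, fun e => ?_⟩).trans_le h)⟩
      · simp only [mem_filter, mem_univ, true_and, cj, Equiv.swap_apply_def] at *
        have := hT a
        have := hU a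
        have := hT u
        have := hU u
        grind
      · have := e ha
        simp only [mem_filter, mem_univ, true_and, cj, Equiv.swap_apply_def] at *
        have := hT a
        have := hU a
        grind
    rw [pow_succ', pow_succ', Matrix.mul_apply]
    exact (mul_le_mul (Mx_cj hm B a b T) (ih _ (cj_pm hT a b) e) (by positivity)
      (by simpa using Mx_nonneg m B 1 _ _)).trans (single_le_sum (f := fun W => Mx m B T W * (Mx m B ^ s) W U)
      (fun W _ => mul_nonneg (by simpa using Mx_nonneg m B 1 _ _) (Mx_nonneg _ _ _ _ _)) (mem_univ _))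

theorem mixing {k g : Fin n → Fin n → ℕ} {κ e B : ℕ} (hT : Tre k g κ) (he : n ≤ 2 ^ e) (o : Fin n)
    (hB : ∀ T, En k T < B) (hZ : 0 < ∑ T, wt k T) (f : (Fin n → Fin n) → ℝ) (hf : ∀ T, 0 ≤ f T ∧ f T ≤ 1)
    (T : Fin n → Fin n) (t : ℕ) : wt k T * ((tr k e B (8 * e + 9))^[t] f T - (∑ T, wt k T * f T) / ∑ T, wt k T) ^ 2 ≤
      Real.exp (-(t * (((1 / 4) ^ e) ^ (8 * e + 9) /
        (2 * (n ^ 5 * (n ^ 2 + 1) ^ (8 * (e + 1)) * 2 ^ (κ * (4 * (e + 1))))) / 2))) * ∑ T, wt k T := by
  have row : ∀ T : Fin n → Fin n, ∑ U, (Mx e B ^ (8 * e + 9)) T U = 1 := fun T => by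
    have := (fnl_P (Ba := fun _ => True) (m := e) (fun _ _ _ => trivial) B (8 * e + 9) T trivial).one
    simpa [Pm_eq, Matrix.mulVec, dotProduct] using this
  have z : ∀ T U : Fin n → Fin n, PM T → ¬PM U → (Mx e B ^ (8 * e + 9)) T U = 0 := fun T U h h' => by
    have f := fnl_P (m := e) (fun w _ => p1_pm e w) B (8 * e + 9) T h
    exact (Mx_pow _ _ _ _ _).trans ((f.congr fun W hW => if_neg fun c : W = U => h' (c ▸ hW)).trans (f.const 0))
  have mn : ∀ T U, PM T → PM U → wt k T * (1 / 2) ^ (En k U - En k T + 1) = 1 / 2 * min (wt k T) (wt k U) :=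
    fun T U h h' => by
      rw [wt_pm h, wt_pm h', pow_succ, ← mul_assoc, ← pow_add, add_tsub_eq_max, mul_comm,
        (pow_right_anti₀ (by norm_num) (by norm_num : (1 / 2 : ℝ) ≤ 1)).map_max]
  have n0 : (0 : ℝ) < n := by exact_mod_cast o.pos
  refine decay (K := fun T U => (Mx e B ^ (8 * e + 9)) T U * (1 / 2) ^ (En k U - En k T + 1)) (wt_nonneg k)
    (fun T U => mul_nonneg (Mx_nonneg _ _ _ _ _) (by positivity)) (fun T => ?_) (fun T U => ?_) (fun h T => ?_)
    (fun g h0 => ?_) hZ f hf T t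
  · refine (sum_le_sum fun U _ => mul_le_mul_of_nonneg_left (pow_le_of_le_one (by norm_num) (by norm_num)
      (Nat.succ_ne_zero _)) (Mx_nonneg _ _ _ _ _)).trans_eq ?_
    rw [← sum_mul, row, one_mul]
  · by_cases h : PM T <;> by_cases h' : PM U
    · rw [mul_left_comm, mn _ _ h h', mul_left_comm (wt k U), mn _ _ h' h, min_comm, Mx_symm]
    · simp [z T U h h', wt, h']
    · simp [z U T h' h, wt, h]
    · simp [wt, h, h']
  · have : ∀ U, (Ex (e + (e + B)) fun z => h (ac k z T U)) =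
        h T + (1 / 2) ^ (En k U - En k T + 1) * (h U - h T) := fun U => by
      rw [← Ex_acc _ _ _ (e + (e + B)) (by have := hB U; omega)]
      exact Ex_congr _ fun z _ => by unfold ac; cases (List.take _ z).all (!·) <;> rfl
    simp only [tr, this, Pm_eq, Matrix.mulVec, dotProduct, mul_add, sum_add_distrib, ← sum_mul, row, one_mul,
      mul_assoc]
  · rw [div_mul_eq_mul_div, div_le_iff₀ (by positivity)]
    refine (mul_le_mul_of_nonneg_left (poin hT he g h0 hZ) (by positivity)).trans ?_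
    rw [mul_left_comm, mul_comm 2, ← mul_assoc _ _ 2, mul_comm (∑ _, _), mul_assoc _ _ 2]
    refine mul_le_mul_of_nonneg_left ?_ (by positivity)
    simp only [mul_sum, sum_mul]
    refine sum_le_sum fun T _ => sum_le_sum fun U _ => ?_
    have q := Mx_nonneg e B (8 * e + 9) T U
    have := wt_nonneg k T
    split_ifs with c
    · by_cases h : PM T ∧ PM U
      · rw [mul_left_comm (wt k T), mn _ _ h.1 h.2]
        nlinarith [mul_le_mul_of_nonneg_right (Mx_ge he B o h.2 _ T h.1 c)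
          (mul_nonneg (le_min this (wt_nonneg k U)) (sq_nonneg (g T - g U)))]
      · rw [show min (wt k T) (wt k U) = 0 by
          rcases not_and_or.1 h with h | h <;> simp [wt_nonneg, show wt k _ = 0 from if_neg h]]
        simp only [zero_mul, mul_zero]
        positivity
    · rw [mul_zero]
      positivity

end Vale.Agent.P308
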