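import Mathlib.Data.ZMod.Basic
import Mathlib.Logic.Relation
import Mathlib.Algebra.BigOperators.Field
import Mathlib.Algebra.Order.BigOperators.Ring.Finset
import Mathlib.Data.Real.Basic
import Mathlib.Tactic

/-! Perfect matchings as involutions, mixing two matchings, congestion. -/

namespace Vale.Agent.P308

open Finset

variable {n : ℕ}

/-- Fixed point free involutions. -/
def PM (T : Fin n → Fin n) : Prop := ∀ u, T (T u) = u ∧ T u ≠ u

/-- Energy. -/
def En (k : Fin n → Fin n → ℕ) (T : Fin n → Fin n) : ℕ := ∑ u, k u (T u)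

open Classical in
/-- Weight. -/
noncomputable def wt (k : Fin n → Fin n → ℕ) (T : Fin n → Fin n) : ℝ :=
  if PM T then (1 / 2) ^ En k T else 0

theorem wt_nonneg (k : Fin n → Fin n → ℕ) (T : Fin n → Fin n) : 0 ≤ wt k T := by
  unfold wt
  split_ifs <;> positivity

theorem wt_pm {k : Fin n → Fin n → ℕ} {T : Fin n → Fin n} (h : PM T) : wt k T = (1 / 2) ^ En k T :=
  if_pos h

/-- Number of disagreements. -/
def df {α : Type} [DecidableEq α] (A B : Fin n → α) : ℕ := (univ.filter fun u => A u ≠ B u).card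

theorem df_comm {α : Type} [DecidableEq α] (A B : Fin n → α) : df A B = df B A := by
  simp only [df, ne_comm]

theorem df_tri {α : Type} [DecidableEq α] (A B C : Fin n → α) : df A C ≤ df A B + df B C :=
  le_trans (card_le_card fun u => by
    simp only [mem_filter, mem_univ, true_and, mem_union]
    by_cases h : A u = B u <;> simp [h]) (card_union_le _ _)

theorem df_self {α : Type} [DecidableEq α] (A : Fin n → α) : df A A = 0 := by simp [df]

theorem card_near (T : Fin n → Fin n) (s : ℕ) :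
    (univ.filter fun A => df A T ≤ s).card ≤ (n ^ 2 + 1) ^ s := by
  induction s with
  | zero =>
    rw [pow_zero, card_le_one_iff]
    have : ∀ A, df A T ≤ 0 → A = T := fun A h => funext fun u => by
      simpa using filter_eq_empty_iff.1 (card_eq_zero.1 (Nat.le_zero.1 h)) (mem_univ u)
    intro A B hA hB
    rw [this A (mem_filter.1 hA).2, this B (mem_filter.1 hB).2]
  | succ s ih =>
    have : (univ.filter fun A => df A T ≤ s + 1) ⊆ (univ.filter fun A => df A T ≤ s) ∪
        ((univ.filter fun A => df A T ≤ s) ×ˢ (univ : Finset (Fin n × Fin n))).image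
          fun p => Function.update p.1 p.2.1 p.2.2 := fun A hA => by
      simp only [mem_union, mem_filter, mem_univ, true_and, mem_image, mem_product, and_true] at *
      by_cases c : df A T ≤ s
      · exact .inl c
      obtain ⟨u, hu⟩ := card_pos.1 (show 0 < df A T by omega)
      refine .inr ⟨(Function.update A u (T u), u, A u), ?_, by simp⟩
      have e : (univ.filter fun w => Function.update A u (T u) w ≠ T w) =
          (univ.filter fun w => A w ≠ T w).erase u := by
        ext w
        by_cases d : w = u <;> simp [d]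
      have := card_erase_of_mem hu
      simp only [df, e] at *
      omega
    have h2 := (card_le_card this).trans ((card_union_le _ _).trans (add_le_add_right card_image_le _))
    rw [card_product, card_univ, Fintype.card_prod, Fintype.card_fin] at h2
    rw [pow_succ]
    nlinarith [Nat.mul_le_mul_right (n * n) ih]

section mix

variable (x y : Fin n → Fin n)

/-- Choose one of the two matchings. -/
def zz (c : ZMod 2) (u : Fin n) : Fin n := if c = 0 then x u else y u

/-- The alternating component. -/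
def Orb (v w : Fin n) : Prop := Relation.ReflTransGen (fun u w => w = x u ∨ w = y u) v w

/-- The flipped set is prescribed off the component of `v`. -/
def Cond (v : Fin n) (j : ℕ) (F : Fin n → ZMod 2) : Prop :=
  ∀ u, ¬Orb x y v u → (F u ≠ 0 ↔ ∃ a : Fin n, (a : ℕ) < j ∧ Orb x y a u)

variable {x y}

theorem z01 (c : ZMod 2) : c = 0 ∨ c = 1 := by revert c; decide

theorem zz_pm (hx : PM x) (hy : PM y) (c : ZMod 2) : PM (zz x y c) := fun u => by
  unfold zz
  split_ifs
  exacts [hx u, hy u]

theorem zz_cases (c : ZMod 2) (u : Fin n) : zz x y c u = x u ∧ zz x y (c + 1) u = y u ∧ c = 0 ∨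
    zz x y c u = y u ∧ zz x y (c + 1) u = x u ∧ c ≠ 0 := by
  rcases z01 c with rfl | rfl
  · exact .inl ⟨rfl, rfl, rfl⟩
  · exact .inr ⟨rfl, rfl, by decide⟩

theorem Orb.step {v u : Fin n} (h : Orb x y v u) (c : ZMod 2) : Orb x y v (zz x y c u) :=
  h.tail (by rcases zz_cases (x := x) (y := y) c u with h | h <;> simp [h.1])

theorem Orb.back (hx : PM x) (hy : PM y) {v u : Fin n} {c : ZMod 2} (h : Orb x y v (zz x y c u)) :
    Orb x y v u := (zz_pm hx hy c u).1 ▸ h.step c

open Classical in
theorem fiber (v : Fin n) (j : ℕ) (A B : Fin n → Fin n) :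
    (univ.filter fun p : (Fin n → Fin n) × (Fin n → Fin n) => PM p.1 ∧ PM p.2 ∧ ∃ F, Cond p.1 p.2 v j F ∧
      (∀ u, zz p.1 p.2 (F u) u = A u) ∧ ∀ u, zz p.1 p.2 (F u + 1) u = B u).card ≤ 2 := by
  refine (card_le_card_of_injOn (t := (univ : Finset Bool)) (fun p => decide (p.1 v = A v))
    (fun _ _ => mem_univ _) ?_).trans (by simp)
  rintro ⟨x, y⟩ h ⟨x', y'⟩ h' e
  obtain ⟨hx, hy, F, c, a, b⟩ := (mem_filter.1 h).2
  obtain ⟨hx', hy', F', c', a', b'⟩ := (mem_filter.1 h').2
  dsimp only at *
  have p : ∀ u, A u = x u ∧ B u = y u ∧ F u = 0 ∨ A u = y u ∧ B u = x u ∧ F u ≠ 0 := fun u => by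
    rw [← a, ← b]; exact zz_cases _ _
  have p' : ∀ u, A u = x' u ∧ B u = y' u ∧ F' u = 0 ∨ A u = y' u ∧ B u = x' u ∧ F' u ≠ 0 := fun u => by
    rw [← a', ← b']; exact zz_cases _ _
  have o : Orb x y = Orb x' y' := by
    unfold Orb
    congr! 4 with u w
    have := p u
    have := p' u
    grind
  have g : ∀ u, x u = x' u ∧ y u = y' u := fun u => by
    by_cases d : Orb x y v u
    · induction d with
      | refl =>
        have := p v
        have := p' v
        rw [decide_eq_decide] at e
        grind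
      | @tail u w _ h2 ih =>
        have := p w
        have := p' w
        have := hx u
        have := hy u
        have := hx' u
        have := hy' u
        grind
    · have : F u ≠ 0 ↔ F' u ≠ 0 := (c u d).trans (by rw [o]; exact (c' u (o ▸ d)).symm)
      have := p u
      have := p' u
      grind
  exact Prod.ext (funext fun u => (g u).1) (funext fun u => (g u).2)

variable (x y) in
/-- `T` represents the mixture with flipped set `F`. -/
def Rep (k : Fin n → Fin n → ℕ) (s : ℕ) (Q : ℝ) (v : Fin n) (j : ℕ) (F : Fin n → ZMod 2)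
    (T : Fin n → Fin n) : Prop :=
  Cond x y v j F ∧ df (fun u => zz x y (F u) u) T ≤ s ∧
    ∃ η, df (fun u => zz x y (F u + 1) u) η ≤ s ∧ wt k x * wt k y ≤ Q * (wt k T * wt k η)

open Classical in
theorem cong (k : Fin n → Fin n → ℕ) (s : ℕ) {Q : ℝ} (hQ : 0 ≤ Q) (v : Fin n) (j : ℕ) (T : Fin n → Fin n) :
    ∑ x, ∑ y, (if ∃ F, Rep x y k s Q v j F T then wt k x * wt k y else 0) ≤
      2 * (n ^ 2 + 1) ^ (2 * s) * Q * (wt k T * ∑ η, wt k η) := by
  set S : (Fin n → Fin n) → Finset ((Fin n → Fin n) × (Fin n → Fin n)) := fun η =>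
    univ.filter fun p => PM p.1 ∧ PM p.2 ∧ ∃ F, Cond p.1 p.2 v j F ∧
      df (fun u => zz p.1 p.2 (F u) u) T ≤ s ∧ df (fun u => zz p.1 p.2 (F u + 1) u) η ≤ s with hS
  have nn : ∀ η, 0 ≤ Q * (wt k T * wt k η) := fun η =>
    mul_nonneg hQ (mul_nonneg (wt_nonneg _ _) (wt_nonneg _ _))
  have h1 : ∀ η, (S η).card ≤ 2 * (n ^ 2 + 1) ^ (2 * s) := fun η => by
    refine (card_le_card (t := ((univ.filter fun A => df A T ≤ s) ×ˢ (univ.filter fun A => df A η ≤ s)).biUnion
      fun q => univ.filter fun p : (Fin n → Fin n) × (Fin n → Fin n) => PM p.1 ∧ PM p.2 ∧ ∃ F,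
        Cond p.1 p.2 v j F ∧ (∀ u, zz p.1 p.2 (F u) u = q.1 u) ∧ ∀ u, zz p.1 p.2 (F u + 1) u = q.2 u)
      fun p hp => ?_).trans ((card_biUnion_le_card_mul _ _ 2 fun q _ => fiber v j q.1 q.2).trans ?_)
    · obtain ⟨hx, hy, F, c, a, b⟩ := (mem_filter.1 hp).2
      exact mem_biUnion.2 ⟨(_, _), mem_product.2 ⟨mem_filter.2 ⟨mem_univ _, a⟩, mem_filter.2 ⟨mem_univ _, b⟩⟩,
        mem_filter.2 ⟨mem_univ _, hx, hy, F, c, fun _ => rfl, fun _ => rfl⟩⟩
    · rw [card_product, mul_comm, two_mul s, pow_add]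
      exact Nat.mul_le_mul_left _ (Nat.mul_le_mul (card_near _ _) (card_near _ _))
  rw [← Fintype.sum_prod_type']
  calc _ ≤ ∑ p : (Fin n → Fin n) × (Fin n → Fin n), ∑ η, if p ∈ S η then Q * (wt k T * wt k η) else 0 := by
        refine sum_le_sum fun p _ => ?_
        have n2 : ∀ η ∈ univ, 0 ≤ if p ∈ S η then Q * (wt k T * wt k η) else 0 := fun η _ => by
          split_ifs
          exacts [nn η, le_rfl]
        split_ifs with h
        · obtain ⟨F, c, a, η, b, w⟩ := h
          by_cases d : PM p.1 ∧ PM p.2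
          · refine le_trans ?_ (single_le_sum n2 (mem_univ η))
            rwa [if_pos (mem_filter.2 ⟨mem_univ _, d.1, d.2, F, c, a, b⟩)]
          · refine le_trans (le_of_eq ?_) (sum_nonneg n2)
            rcases not_and_or.1 d with d | d <;> simp [wt, d]
        · exact sum_nonneg n2
    _ ≤ _ := by
        rw [sum_comm, mul_sum, mul_sum]
        refine sum_le_sum fun η _ => ?_
        rw [← sum_filter, filter_mem_eq_inter, univ_inter, sum_const, nsmul_eq_mul, mul_assoc]
        exact mul_le_mul_of_nonneg_right (by exact_mod_cast h1 η) (nn η)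

theorem En_mix (k : Fin n → Fin n → ℕ) (F : Fin n → ZMod 2) :
    En k (fun u => zz x y (F u) u) + En k (fun u => zz x y (F u + 1) u) = En k x + En k y := by
  simp only [En, ← sum_add_distrib]
  refine sum_congr rfl fun u _ => ?_
  rcases zz_cases (x := x) (y := y) (F u) u with h | h <;> simp [h.1, h.2.1, add_comm]

/-- The alternating walk from `v`. -/
def vs (x y : Fin n → Fin n) (v : Fin n) : ℕ → Fin n
  | 0 => v
  | i + 1 => zz x y i (vs x y v i)

theorem cyc (hx : PM x) (hy : PM y) (v : Fin n) : ∃ m, 2 ≤ m ∧ m ≤ n ∧ (m : ZMod 2) = 0 ∧ vs x y v m = v ∧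
    (∀ i < m, ∀ j < m, vs x y v i = vs x y v j → i = j) ∧ ∀ u, Orb x y v u ↔ ∃ i < m, vs x y v i = u := by
  have ex : ∃ m, ∃ i < m, vs x y v i = vs x y v m := by
    obtain ⟨i, j, h, e⟩ := Finite.exists_ne_map_eq_of_infinite (vs x y v)
    rcases lt_or_gt_of_ne h with h | h
    exacts [⟨j, i, h, e⟩, ⟨i, j, h, e.symm⟩]
  classical
  obtain ⟨i, hi, e⟩ := Nat.find_spec ex
  have inj : ∀ i < Nat.find ex, ∀ j < Nat.find ex, vs x y v i = vs x y v j → i = j := fun i h j h' e => by
    rcases lt_trichotomy i j with c | c | c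
    · exact absurd ⟨i, c, e⟩ (Nat.find_min ex h')
    · exact c
    · exact absurd ⟨j, c, e.symm⟩ (Nat.find_min ex h)
  generalize Nat.find ex = m at *
  obtain ⟨m, rfl⟩ : ∃ m', m = m' + 1 := ⟨m - 1, by omega⟩
  have bk : ∀ i : ℕ, zz x y i (vs x y v (i + 1)) = vs x y v i := fun i => (zz_pm hx hy _ _).1
  have ne : vs x y v (m + 1) ≠ vs x y v m := (zz_pm hx hy _ _).2
  have par : ∀ a b : ℕ, (a : ZMod 2) = b ↔ a % 2 = b % 2 := fun a b => ZMod.natCast_eq_natCast_iff' a b 2
  have h1 : i % 2 ≠ m % 2 := fun c => by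
    have a : vs x y v (i + 1) = vs x y v m := by rw [vs, (par i m).2 c, e, bk]
    rcases Nat.lt_or_ge i m with d | d
    · have := inj _ (by omega) _ (by omega) a
      omega
    · exact ne (by rw [← e, show i = m by omega])
  have h2 : i = 0 := by
    by_contra c
    obtain ⟨i, rfl⟩ : ∃ i', i = i' + 1 := ⟨i - 1, by omega⟩
    have a : vs x y v i = vs x y v m := by rw [← bk i, (par i m).2 (by omega), e, bk]
    have := inj _ (by omega) _ (by omega) a
    omega
  subst h2
  have h3 : ((m + 1 : ℕ) : ZMod 2) = 0 := ((par _ 0).2 (by omega)).trans Nat.cast_zero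
  refine ⟨m + 1, by omega, ?_, h3, e.symm, inj, fun u => ⟨fun h => ?_, ?_⟩⟩
  · simpa using card_le_card_of_injOn (s := range (m + 1)) (t := univ) (vs x y v) (fun _ _ => mem_univ _)
      fun i h j h' => inj i (by simpa using h) j (by simpa using h')
  · induction h with
    | refl => exact ⟨0, by omega, rfl⟩
    | @tail u w _ h2 ih =>
      obtain ⟨i, hi, rfl⟩ := ih
      obtain ⟨c, rfl⟩ : ∃ c : ℕ, w = zz x y c (vs x y v i) := by
        rcases h2 with h2 | h2
        exacts [⟨0, h2⟩, ⟨1, h2⟩]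
      by_cases d : c % 2 = i % 2
      · rw [(par _ _).2 d]
        rcases Nat.lt_or_ge i m with f | f
        · exact ⟨i + 1, by omega, rfl⟩
        · exact ⟨0, by omega, by rw [e, show i = m by omega, vs]⟩
      · rcases i with _ | i
        · exact ⟨m, by omega, by rw [e, (par c m).2 (by omega), bk]⟩
        · exact ⟨i, by omega, by rw [(par c i).2 (by omega), bk]⟩
  · rintro ⟨i, hi, rfl⟩
    clear hi
    induction i with
    | zero => exact .refl
    | succ i ih => exact ih.step _

end mix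

theorem patch {A τ : Fin n → Fin n} {H : Finset (Fin n)}
    (hA : ∀ u ∉ H, A u ∉ H ∧ A (A u) = u ∧ A u ≠ u) (hτ : ∀ u ∈ H, τ u ∈ H ∧ τ (τ u) = u ∧ τ u ≠ u)
    (k : Fin n → Fin n → ℕ) : ∃ T, PM T ∧ df A T ≤ H.card ∧
      En k T + ∑ u ∈ H, k u (A u) = En k A + ∑ u ∈ H, k u (τ u) := by
  refine ⟨fun u => if u ∈ H then τ u else A u, fun u => ?_, card_le_card fun u hu => ?_, ?_⟩
  · by_cases c : u ∈ H
    · simp [c, hτ u c]
    · simp [c, hA u c]
  · by_contra c
    simp [c] at hu
  · rw [En, En, ← sum_add_sum_compl H, ← sum_add_sum_compl H fun u => k u (A u),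
      sum_congr rfl (g := fun u => k u (τ u)) fun u hu => by rw [if_pos hu],
      sum_congr rfl (s₁ := Hᶜ) (g := fun u => k u (A u)) fun u hu => by rw [if_neg (mem_compl.1 hu)]]
    ring

end Vale.Agent.P308
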