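import Vale.Agent.P317.Defs
import Mathlib.Combinatorics.SimpleGraph.Matching

namespace Vale.Agent.P308

open Vale.Agent.P317

/-- The input: adjacency matrix, `ε`, `δ`, and the coins. -/
abbrev Inp : Type := (List (List Bool) × ℚ × ℚ) × List Bool

def encInp : Inp → List Bool :=
  encPair (encPair (encList (encList encBool)) (encPair encRat encRat)) (encList encBool)

open Classical in
/-- The adjacency matrix of a graph. -/
noncomputable def adjM {n : ℕ} (G : SimpleGraph (Fin n)) : List (List Bool) :=
  List.ofFn fun a => List.ofFn fun b => decide (G.Adj a b)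

/-- The number of perfect matchings. -/
noncomputable def numPM {n : ℕ} (G : SimpleGraph (Fin n)) : ℕ :=
  {M : G.Subgraph | M.IsPerfectMatching}.ncard

end Vale.Agent.P308
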