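import Vale.Agent.P308.Path
import Mathlib.Combinatorics.SimpleGraph.Paths
import Mathlib.Combinatorics.SimpleGraph.Connectivity.Connected

/-! Large marginals force the four point condition; Gromov's tree approximation. -/

namespace Vale.Agent.P308

open Finset

variable {n : ℕ} {x y : Fin n → Fin n} {k : Fin n → Fin n → ℕ}

/-- Total weight of the matchings through a pair. -/
noncomputable def num (k : Fin n → Fin n → ℕ) (a b : Fin n) : ℝ := ∑ T, wt k T * if T a = b then 1 else 0

theorem rep4 (ks : ∀ a b, k a b = k b a) (hx : PM x) (hy : PM y) {a b c d : Fin n} (ac : a ≠ c) (ad : a ≠ d)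
    (bc : b ≠ c) (bd : b ≠ d) (h1 : x a = b) (h2 : y c = d) : ∃ T F, Rep x y k 4
      (2 ^ (2 * max (k a c + k b d) (k a d + k b c)) * (1 / 2) ^ (2 * (k a b + k c d))) a 0 F T := by
  classical
  have x1 := hx a
  have y1 := hy c
  rw [h1] at x1
  rw [h2] at y1
  have hz := zz_pm hx hy
  by_cases o : Orb x y a c
  · obtain ⟨m, m2, -, m0, mv, inj, orb⟩ := cyc hx hy a
    obtain ⟨j, hj, e, f⟩ := edge m2 m0 mv orb o 1
    have j0 : 0 < j := Nat.pos_of_ne_zero fun h => by simp [h] at e
    have h : ind 0 j m = ind 0 j 0 := by simp [ind, hj]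
    have on := @FI_on' n x y a m m2 mv inj orb 0 (fun _ _ => rfl) _ h
    have w := wall hx hy m2 m0 mv inj orb (b := 0) (fun _ _ => rfl) (fun _ _ => rfl) h
    have v1 : vs x y a (0 + 1) = b := h1
    have vj : vs x y a (j + 1) = y (vs x y a j) := by rw [vs, ← e]; rfl
    have f0 := on (Nat.zero_le m)
    have f1 := on (i := 0 + 1) (by omega)
    have f2 := on hj.le
    have f3 := on (i := j + 1) hj
    rw [vj] at f3
    rw [v1] at f1
    simp only [ind, vs, lt_irrefl, false_and, if_false, j0, le_refl, and_self, if_true, zero_add, one_pos,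
      Nat.succ_le_of_lt j0, Nat.not_succ_le_self, and_false] at f0 f1 f2 f3
    set F := FI (vs x y a) m 0 (ind 0 j) with hF
    have w' : ∀ u t, F (zz x y t u) = F u ∨ t = 0 ∧ (u = a ∨ u = b) ∨
        t = 1 ∧ (u = vs x y a j ∨ u = y (vs x y a j)) := fun u t => (w u t).imp_right fun ⟨p, _, e1, e2, e3⟩ => by
      by_cases p0 : p = 0
      · subst p0
        exact .inl ⟨e1, v1 ▸ e2⟩
      · obtain rfl : p = j := by
          by_contra p1
          refine e3 ?_
          unfold ind
          split_ifs <;> first | rfl | omega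
        exact .inr ⟨e1.trans e.symm, vj ▸ e2⟩
    have cd : Cond x y a 0 F := fun u hu => by simp [hF, FI_off orb _ hu]
    rw [vj] at f
    clear_value F
    generalize vs x y a j = c' at *
    have key : ∀ s t : ZMod 2, ∀ p q, p ≠ q → (∀ u, F (zz x y (F u + s) u) = F u ∨ u = p ∨ u = q) →
        F (zz x y (F p + s) p) ≠ F p → F (zz x y (F q + s) q) ≠ F q → ∃ T, PM T ∧
        df (fun u => zz x y (F u + s) u) T ≤ 4 ∧ En k T + (k p (zz x y (F p + s) p) + k q (zz x y (F q + s) q)) =
          En k (fun u => zz x y (F u + s) u) + 2 * k p q := fun s t p q pq h hp hq => by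
      obtain ⟨T, t1, t2, t3⟩ := patch (A := fun u => zz x y (F u + s) u) (H := {p, q})
        (τ := fun u => if u = p then q else p) (fun u hu => by
          have := h u
          have := hz (F u + s) u
          grind) (by grind) k
      rw [sum_pair pq, sum_pair pq, if_pos rfl, if_neg pq.symm, ks q p, ← two_mul] at t3
      exact ⟨T, t1, t2.trans (card_le_two.trans (by norm_num)), t3⟩
    have ac' : a ≠ c' := fun h => by simp [← h, f0] at f2
    have bd' : b ≠ y c' := fun h => by simp [← h, f1] at f3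
    have z0 : ∀ u, zz x y 0 u = x u := fun _ => rfl
    have z1 : ∀ u, zz x y 1 u = y u := fun _ => rfl
    have z2 : (1 + 1 : ZMod 2) = 0 := rfl
    have y2 := hy c'
    obtain ⟨T, t1, t2, t3⟩ := key 0 0 a c' ac' (fun u => by
      have := w' u (F u + 0)
      grind) (by simp [f0, z0, h1, f1]) (by simp [f2, z1, f3])
    obtain ⟨η, s1, s2, s3⟩ := key 1 0 b (y c') bd' (fun u => by
      have := w' u (F u + 1)
      grind) (by simp [f1, z2, z0, x1, f0]) (by simp [f2, z1, f3, y2])
    simp only [add_zero, f0, f1, f2, f3, zero_add, z0, z1, z2, h1, x1.1, y2.1] at t2 t3 s3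
    have := En_mix (x := x) (y := y) k F
    refine ⟨T, F, cd, t2, η, s2, wt_le' hx hy t1 s1 ?_⟩
    have := ks a b
    have := ks c d
    rcases f with rfl | rfl
    · rw [h2] at *
      omega
    · rw [y2.1] at h2
      subst h2
      omega
  · set F : Fin n → ZMod 2 := fun u => if Orb x y a u then 1 else 0 with hF
    have cl : ∀ u t, F (zz x y t u) = F u := fun u t =>
      if_congr ⟨fun h => h.back hx hy, fun h => h.step t⟩ rfl rfl
    have ob : Orb x y a b := h1 ▸ Orb.step .refl 0
    have od : ¬Orb x y a d := fun h => o (Orb.back hx hy (c := 1) (h2.symm ▸ h : Orb x y a (y c)))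
    have pb : PM fun u => zz x y (F u + 1) u := fun u => by simpa only [cl] using hz _ u
    have e1 : zz x y (F a + 1) a = b := by rw [hF]; simp only [show Orb x y a a from .refl, if_true]; exact h1
    have e2 : zz x y (F b + 1) b = a := by simp only [hF, ob, if_true]; exact x1.1
    have e3 : zz x y (F c + 1) c = d := by simp only [hF, o, if_false]; exact h2
    have e4 : zz x y (F d + 1) d = c := by simp only [hF, od, if_false]; exact y1.1
    obtain ⟨η, t1, t2, t3⟩ := patch (A := fun u => zz x y (F u + 1) u) (H := {a, b, c, d})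
      (τ := fun u => if u = a then c else if u = b then d else if u = c then a else b) (fun u hu => by
        have := pb u
        grind) (by grind) k
    have ab := x1.2.symm
    have cd := y1.2.symm
    rw [sum_insert (by simp [*]), sum_insert (by simp [*]), sum_pair cd, sum_insert (by simp [*]),
      sum_insert (by simp [*]), sum_pair cd] at t3
    simp only [e1, e2, e3, e4, if_true, ab.symm, ac.symm, ad.symm, bc.symm, bd.symm, cd.symm, if_false] at t3
    refine ⟨_, F, fun u hu => by simp [hF, hu], by rw [df_self]; omega, η, t2.trans card_le_four,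
      wt_le' hx hy (fun u => by simpa only [cl] using hz _ u) t1 ?_⟩
    have := En_mix (x := x) (y := y) k F
    have := ks a b
    have := ks c d
    have := ks a c
    have := ks b d
    omega

theorem four (ks : ∀ a b, k a b = k b a) {δ : ℝ} {κ : ℕ} (hZ : 0 < ∑ T, wt k T) (d0 : 0 < δ)
    (hκ : 2 * (n ^ 2 + 1) ^ 8 ≤ δ ^ 2 * 4 ^ κ) (hδ : ∀ a b, a ≠ b → δ * ∑ T, wt k T ≤ num k a b)
    {a b c d : Fin n} (ab : a ≠ b) (cd : c ≠ d) (ac : a ≠ c) (ad : a ≠ d) (bc : b ≠ c) (bd : b ≠ d) :
    k a b + k c d ≤ max (k a c + k b d) (k a d + k b c) + κ := by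
  classical
  set Q : ℝ := 2 ^ (2 * max (k a c + k b d) (k a d + k b c)) * (1 / 2) ^ (2 * (k a b + k c d)) with hQ
  have a1 := mul_le_mul (hδ a b ab) (hδ c d cd) (by positivity) ((by positivity : 0 ≤ δ * _).trans (hδ a b ab))
  have a2 := sum_le_sum fun T (_ : T ∈ univ) => cong k 4 (Q := Q) (by positivity) a 0 T
  have a3 : num k a b * num k c d ≤ ∑ T, ∑ x, ∑ y, if ∃ F, Rep x y k 4 Q a 0 F T then wt k x * wt k y else 0 := by
    rw [num, num, sum_mul_sum, sum_comm (γ := Fin n → Fin n) (f := fun T x => ∑ y, _)]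
    refine sum_le_sum fun x _ => ?_
    rw [sum_comm]
    refine sum_le_sum fun y _ => ?_
    have nn : ∀ T ∈ univ, 0 ≤ if ∃ F, Rep x y k 4 Q a 0 F T then wt k x * wt k y else 0 := fun T _ => by
      split_ifs
      exacts [mul_nonneg (wt_nonneg _ _) (wt_nonneg _ _), le_rfl]
    by_cases e : PM x ∧ PM y ∧ x a = b ∧ y c = d
    · obtain ⟨T, h⟩ := rep4 ks e.1 e.2.1 ac ad bc bd e.2.2.1 e.2.2.2
      exact le_trans (by rw [if_pos h]; simp [e]) (single_le_sum nn (mem_univ T))
    · refine le_trans (le_of_eq ?_) (sum_nonneg nn)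
      simp only [not_and_or] at e
      rcases e with e | e | e | e <;> simp [wt, e]
  rw [← mul_sum, ← sum_mul] at a2
  have a4 : δ ^ 2 ≤ δ ^ 2 * 4 ^ κ * Q := le_of_mul_le_mul_right (le_trans (le_of_eq (by ring))
    ((a1.trans (a3.trans a2)).trans (by gcongr)))
    (mul_pos hZ hZ)
  rw [mul_assoc, le_mul_iff_one_le_right (by positivity), hQ, one_div_pow, mul_one_div, ← mul_div_assoc,
    one_le_div (by positivity), show (4 : ℝ) = 2 ^ 2 by norm_num, ← pow_mul, ← pow_add,
    pow_le_pow_iff_right₀ (by norm_num)] at a4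
  omega

theorem gromov {G : Fin n → Fin n → ℕ} {B κ e : ℕ} (he : n ≤ 2 ^ e) (gs : ∀ a b, G a b = G b a)
    (gb : ∀ a b, G a b ≤ B) (gd : ∀ a, G a a = B) (hy : ∀ a b c, min (G a c) (G c b) ≤ G a b + κ) :
    ∃ g : Fin n → Fin n → ℕ, (∀ a b, g a b = g b a) ∧ (∀ t a b c, t ≤ g a b → t ≤ g b c → t ≤ g a c) ∧
      (∀ a b, g a b ≤ B) ∧ (∀ a, g a a = B) ∧ ∀ a b, G a b ≤ g a b ∧ g a b ≤ G a b + κ * e := by
  classical
  set Γ : ℕ → SimpleGraph (Fin n) := fun t => SimpleGraph.fromRel fun a b => t ≤ G a b with hΓ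
  have adj : ∀ t a b, (Γ t).Adj a b ↔ a ≠ b ∧ t ≤ G a b := fun t a b => by simp [hΓ, gs b a]
  set g := fun a b => Nat.findGreatest (fun t => (Γ t).Reachable a b) B with hg
  have le : ∀ t ≤ B, ∀ a b, (Γ t).Reachable a b → t ≤ g a b := fun t ht a b h => Nat.le_findGreatest ht h
  have one : ∀ t a b, t ≤ G a b → (Γ t).Reachable a b := fun t a b h => by
    by_cases c : a = b
    · rw [c]
    · exact ((adj t a b).2 ⟨c, h⟩).reachable
  have sp : ∀ t a b, t ≤ g a b → (Γ t).Reachable a b := fun t a b h =>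
    (Nat.findGreatest_spec (P := fun t => (Γ t).Reachable a b) (Nat.zero_le B) (one 0 a b (Nat.zero_le _))).mono
      fun u w => by
        simp only [adj]
        exact fun c => ⟨c.1, h.trans c.2⟩
  have gB : ∀ a b, g a b ≤ B := fun a b => Nat.findGreatest_le B
  refine ⟨g, fun a b => by simp only [hg, SimpleGraph.reachable_comm (u := a)], fun t a b c h h' =>
    le t (h.trans (gB _ _)) _ _ ((sp _ _ _ h).trans (sp _ _ _ h')), gB, fun a => (gB _ _).antisymm
    (le B le_rfl _ _ .rfl), fun a b => ⟨le _ (gb _ _) _ _ (one _ _ _ le_rfl), ?_⟩⟩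
  obtain ⟨p, hp⟩ := (sp _ a b le_rfl).exists_isPath
  have key : ∀ j i l, i ≤ l → l ≤ i + 2 ^ j → l ≤ p.length → g a b ≤ G (p.getVert i) (p.getVert l) + κ * j := by
    intro j
    induction j with
    | zero =>
      intro i l h1 h2 h3
      rcases h1.lt_or_eq with c | rfl
      · obtain rfl : l = i + 1 := by omega
        exact ((adj _ _ _).1 (p.adj_getVert_succ h3)).2
      · rw [gd]
        exact gB _ _
    | succ j ih =>
      intro i l h1 h2 h3
      have := ih i (min l (i + 2 ^ j)) (le_min h1 (Nat.le_add_right _ _)) (min_le_right _ _) (by omega)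
      have := ih (min l (i + 2 ^ j)) l (min_le_left _ _) (by rw [pow_succ] at h2; omega) h3
      have := hy (p.getVert i) (p.getVert l) (p.getVert (min l (i + 2 ^ j)))
      rw [mul_add]
      omega
  have := hp.length_lt
  rw [Fintype.card_fin] at this
  simpa using key e 0 p.length (Nat.zero_le _) (by omega) le_rfl

theorem tre (ks : ∀ a b, k a b = k b a) {κ e : ℕ} (he : n ≤ 2 ^ e) (o : Fin n)
    (h4 : ∀ a b c d : Fin n, a ≠ b → c ≠ d → a ≠ c → a ≠ d → b ≠ c → b ≠ d →
      k a b + k c d ≤ max (k a c + k b d) (k a d + k b c) + κ) : ∃ g, Tre k g (κ * e) := by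
  obtain ⟨M, hM⟩ : ∃ M, ∀ a b, k a b ≤ M := ⟨univ.sup fun p : Fin n × Fin n => k p.1 p.2, fun a b =>
    le_sup (f := fun p : Fin n × Fin n => k p.1 p.2) (mem_univ (a, b))⟩
  obtain ⟨g, g1, g2, g3, g4, g5⟩ := gromov (κ := κ) (B := 4 * M) (G := fun a b => if a = b then 4 * M else
    if a = o ∨ b = o then 0 else k a o + k b o + 2 * M - k a b) he (fun a b => by grind)
    (fun a b => by have := hM a o; have := hM b o; grind) (by simp) fun a b c => by
      have := h4 a b c o
      have := hM a b
      have := hM a c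
      have := hM c b
      have := hM a o
      have := hM b o
      have := hM c o
      have := ks b c
      grind
  refine ⟨g, g1, g2, ⟨_, g3, g4⟩, fun a => if a = o then -M else k a o + M, fun a b h => ?_⟩
  have := g5 a b
  have := hM a b
  have := ks a b
  grind

end Vale.Agent.P308
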