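import Vale.Agent.P308.Round

/-! All rounds, the success probability. -/

namespace Vale.Agent.P308

open Finset Vale.Agent.Common.TreeTM Vale.Agent.P337 Vale.Agent.P317

variable {n P s : ℕ} {A : List (List Bool)} {U : List Bool}

theorem rounds (hU : n ≤ U.length) (hP : 64 * (n + 2) ≤ P) (hs : 0 < s) (hn : n % 2 = 0)
    (hL : 8 * LL (n, P, s, A, U) + 9 ≤ U.length) (hM : P ^ 24 * s ≤ U.length)
    (hT : 2 ^ (120 * LL (n, P, s, A, U) ^ 3) ≤ U.length)
    (hc : ∀ a b : Fin n, cap (n, P, s, A, U) a b = cap (n, P, s, A, U) b a) {D : ℕ} {G : St → ℝ}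
    (G0 : ∀ s, 0 ≤ G s) (hG : ∀ u d f z, Inv P (fun a b => cap (n, P, s, A, U) a b) (P ^ 9) (kf n P u d)
      (est (P ^ 24 * s) D f) z → 0 < ∑ T, wt (kf n P u d) T → 1 ≤ G ([], [], u, d, f, z)) (S : List ℕ) :
    ∀ j u d f z, j + S.length = P ^ 9 → Inv P (fun a b => cap (n, P, s, A, U) a b) j (kf n P u d)
      (est (P ^ 24 * s) D f) z → 1 - S.length * (P ^ 2 * (2 * Real.exp (-(P ^ 2 * s)))) ≤
      Kn (n, P, s, A, U) (S.flatMap fun _ => rnd (n, P, s, A, U)) G ([], [], u, d, f, z) := by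
  obtain ⟨T0, h0, e0⟩ := ex_t0 (P := P) (s := s) (A := A) hU hn
  have P0 : 0 < P := by omega
  have eT : TT (n, P, s, A, U) = 2 ^ (120 * LL (n, P, s, A, U) ^ 3) := by
    rw [TT, List.length_take, min_eq_left (Nat.lt_two_pow_self.le.trans hT)]
  induction S with
  | nil =>
    intro j u d f z e h
    simpa [Kn] using hG u d f z (e ▸ h) (Z_pos h0 _)
  | cons t S ih =>
    intro j u d f z e h
    rw [List.length_cons] at e
    rw [List.flatMap_cons, Kn_append, Kn_rnd hU hL e0 hM (eT ▸ hT), eT]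
    refine le_trans ?_ (Bt_ge (fnl_tr _ _ _ _ _ T0 h0) (univ : Finset (Fin n × Fin n))
      (fun q T => decide (T q.1 = q.2)) _ (c := 1 - S.length * (P ^ 2 * (2 * Real.exp (-(P ^ 2 * s))))) _
      (by positivity) ((div_le_one (by positivity)).2 (one_le_pow₀ (by exact_mod_cast P0)))
      (fun q _ => mix h hP (fun a b => by unfold cap; cases List.getD _ _ false <;> simp) (by
        rw [LL, Nat.size_eq_bits_len]; exact Nat.lt_size_self P) h0 q.1 q.2) _ (sub_le_self _ (by positivity))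
      (fun l => Kn_nonneg _ _ G0 _) fun l l1 _ l3 => by
        obtain ⟨u', d', f', z', e1, e2⟩ := round hU hP hs (by omega) hc h (Z_pos h0 _) l l1
          fun a b => l3 (a, b) (mem_univ _)
        rw [e1]
        exact ih _ _ _ _ _ (by omega) e2)
    have c1 : ((univ : Finset (Fin n × Fin n)).card : ℝ) ≤ P ^ 2 := by
      rw [card_univ, Fintype.card_prod, Fintype.card_fin, ← sq]
      exact_mod_cast Nat.pow_le_pow_left (by omega) 2
    rw [show ((P ^ 24 * s : ℕ) : ℝ) * (1 / P ^ 11) ^ 2 = P ^ 2 * s by push_cast; field_simp, List.length_cons]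
    push_cast
    linarith [mul_le_mul_of_nonneg_right c1 (show 0 ≤ 2 * Real.exp (-(P ^ 2 * s)) by positivity)]

open Classical in
theorem numPM_eq (G : SimpleGraph (Fin n)) :
    (univ.filter fun T : Fin n → Fin n => PM T ∧ ∀ u, G.Adj u (T u)).card = numPM G := by
  rw [numPM, ← Set.ncard_coe_finset]
  refine Set.ncard_congr (fun T h => ⟨Set.univ, fun u v => T u = v, fun c => c ▸ (mem_filter.1 h).2.2 _,
    fun _ => trivial, ⟨fun u v c => c ▸ ((mem_filter.1 h).2.1 u).1⟩⟩) (fun T h => ?_) (fun T T' _ _ e => ?_)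
    fun M h => ?_
  · exact SimpleGraph.Subgraph.isPerfectMatching_iff.2 fun v => existsUnique_eq'
  · exact funext fun u => (congrFun (congrFun (congrArg SimpleGraph.Subgraph.Adj e) u) (T' u)).mpr rfl
  · choose T h1 h2 using SimpleGraph.Subgraph.isPerfectMatching_iff.1 h
    refine ⟨T, mem_filter.2 ⟨mem_univ _, fun u => ⟨(h2 _ _ (h1 u).symm).symm, (M.adj_sub (h1 u)).ne'⟩,
      fun u => M.adj_sub (h1 u)⟩, ?_⟩
    ext u v
    · exact ⟨fun _ => h.2 u, fun _ => trivial⟩
    · exact ⟨fun c => c ▸ h1 u, fun c => (h2 _ _ c).symm⟩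

open Classical in
theorem cap_adj (G : SimpleGraph (Fin n)) (a b : Fin n) :
    cap (n, P, s, adjM G, U) a b = P ^ 9 + if G.Adj a b then 0 else P ^ 2 := by
  simp [cap, adjM, List.getD_eq_getElem?_getD]

open Classical in
theorem succ_prob (G : SimpleGraph (Fin n)) (hP : 64 * (n + 2) ≤ P) (hs : 0 < s) {ρ : ℕ}
    (hρ : 2 ^ (121 * P.size ^ 3) * s ≤ ρ) (hU : U.length = ρ) {ε : ℝ} (e1 : ε ≤ 1) (e2 : 64 ≤ ε * P)
    (E : ℕ × ℕ → Prop) (hE : ∀ z : ℕ × ℕ, (1 - ε) * numPM G ≤ z.1 / z.2 → z.1 / z.2 ≤ (1 + ε) * numPM G → E z) :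
    1 - P ^ 9 * (P ^ 2 * (2 * Real.exp (-(P ^ 2 * s)))) ≤ Ex ρ fun c => if E (out (n, P, s, adjM G, U)
      ((ms (n, P, s, adjM G, U))^[ρ] (([], [], [], [], [], false), c, ins (n, P, s, adjM G, U))).1.2.2.2.2.1)
      then 1 else 0 := by
  have e0 : 0 ≤ ε := nonneg_of_mul_nonneg_left (by linarith) (show (0 : ℝ) < P by exact_mod_cast (by omega : 0 < P))
  by_cases n0 : n = 0
  · subst n0
    have : numPM G = 1 := by
      rw [← numPM_eq]
      simp [PM]
    simp only [out, show neq 0 0 = true from rfl, Bool.cond_true, Ex_const]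
    rw [if_pos (hE _ (by simpa [this]) (by simpa [this]))]
    exact sub_le_self _ (by positivity)
  by_cases n1 : n % 2 = 1
  · have : numPM G = 0 := (Set.ncard_eq_zero (Set.toFinite _)).2 (Set.eq_empty_of_forall_notMem fun M h => by
      have := SimpleGraph.Subgraph.IsPerfectMatching.even_card h
      rw [Fintype.card_fin, Nat.even_iff] at this
      omega)
    simp only [out, show neq n 0 = false from decide_eq_false n0, n1, show neq 1 1 = true from rfl, Bool.true_or,
      Bool.cond_true, Bool.cond_false, Ex_const]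
    rw [if_pos (hE _ (by simp [this]) (by simp [this]))]
    exact sub_le_self _ (by positivity)
  have hl := Nat.lt_size_self P
  have eL : LL (n, P, s, adjM G, U) = P.size := Nat.size_eq_bits_len P
  generalize P.size = l at *
  have l8 : 8 ≤ l := (Nat.pow_lt_pow_iff_right one_lt_two (n := 7)).1 (by omega)
  have m : ∀ a, P ^ a ≤ 2 ^ (l * a) := fun a => (Nat.pow_le_pow_left hl.le a).trans_eq (pow_mul _ _ _).symm
  have l3 : 64 * l ≤ l ^ 3 := by nlinarith [Nat.mul_le_mul l8 l8]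
  have m' : ∀ a, a ≤ 121 * l ^ 3 → 2 ^ a * s ≤ U.length := fun a h =>
    hU ▸ (Nat.mul_le_mul_right s (Nat.pow_le_pow_right two_pos h)).trans hρ
  have m2 : ∀ a, a ≤ 121 * l ^ 3 → 2 ^ a ≤ U.length := fun a h => (Nat.le_mul_of_pos_right _ hs).trans (m' a h)
  have u1 := m2 l (by omega)
  have u2 : 8 * l + 10 ≤ 2 ^ (2 * l) := by
    rw [mul_comm 2, pow_mul]
    nlinarith [Nat.lt_two_pow_self (n := l)]
  have u3 := u2.trans (m2 _ (by omega))
  have u4 := (Nat.mul_le_mul_right s (m 24)).trans (m' _ (by omega))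
  have u5 := m2 (120 * l ^ 3) (by omega)
  have u6 := (m 9).trans (m2 _ (by omega))
  have b1 : bb (n, P, s, adjM G, U) ≤ 2 ^ (l * 12) := by
    refine le_trans ?_ (m 12)
    have := Nat.le_self_pow (n := 11) (by norm_num) P
    have := Nat.mul_le_mul_right (P ^ 11) (show 128 ≤ P by omega)
    have : l ≤ P := eL ▸ (Nat.size_eq_bits_len P).le.trans (Nat.size_le.2 Nat.lt_two_pow_self)
    rw [bb, eL, pow_succ' P 11]
    dsimp only
    omega
  have b2 : (ins (n, P, s, adjM G, U)).length ≤ 2 ^ (120 * l ^ 3 + 35 * l + 2) * s := by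
    have := Nat.mul_le_mul (Nat.mul_le_mul_right s (m 24)) (Nat.mul_le_mul_left (2 ^ (120 * l ^ 3)) u2)
    have a : 0 < P ^ 24 * s := Nat.mul_pos (Nat.pow_pos (by omega)) hs
    have b := Nat.le_mul_of_pos_right (P ^ 24 * s) (show 0 < 2 ^ (120 * l ^ 3) * (8 * l + 10) by positivity)
    simp only [ins, rnd, stI, MM, TT, eL, rg_eq u6, rg_eq u4, List.length_take, min_eq_left
      (Nat.lt_two_pow_self.le.trans u5), rg_eq u5, rg_eq (show 8 * l + 9 ≤ U.length by omega), List.length_flatMap,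
      List.length_append, List.length_cons, List.length_map, List.length_range, List.map_const', List.sum_replicate,
      List.length_nil, smul_eq_mul, List.length_replicate]
    refine (Nat.mul_le_mul (m 9) (show _ ≤ 4 * (2 ^ (l * 24) * s * (2 ^ (120 * l ^ 3) * 2 ^ (2 * l))) by
      rw [mul_add]
      simp only [add_assoc, zero_add, Nat.reduceAdd]
      omega)).trans_eq (by ring)
  have b3 : bb (n, P, s, adjM G, U) * (ins (n, P, s, adjM G, U)).length ≤ ρ := by
    refine (Nat.mul_le_mul b1 b2).trans ?_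
    rw [← mul_assoc, ← pow_add]
    exact hU ▸ m' _ (by omega)
  obtain ⟨r, hr⟩ : ∃ r, n = 2 * r := ⟨n / 2, by omega⟩
  rw [master _ (fun z => if E (out (n, P, s, adjM G, U) z.2.2.2.2.1) then 1 else 0) _ _ _ _
    (b2.trans (hU ▸ m' _ (by omega))) b3, ins, rg_eq u6]
  refine le_trans (le_of_eq (by simp)) (rounds (D := ∏ i ∈ range r, (2 * i + 1)) (by omega) hP hs (by omega)
    (by omega) u4 (eL ▸ u5) (fun a b => by simp only [cap_adj, G.adj_comm]) (fun s => by positivity)
    (fun u d f z h hZ => ?_) _ 0 _ _ _ _ (by simp) ?_)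
  · cases z
    · exact (h.stop hP (by omega) hZ fun a b => by rw [cap_adj]; split_ifs <;> simp).elim
    have := h.last hP le_rfl (cap_adj G) e1 e2
    have q : (0 : ℝ) < ((4 * (P ^ 24 * s)) ^ f.length : ℕ) := by
      have : 0 < P := by omega
      positivity
    have o : ((out (n, P, s, adjM G, U) f).1 / (out (n, P, s, adjM G, U) f).2 : ℝ) =
        if 2 * est (P ^ 24 * s) (∏ i ∈ range r, (2 * i + 1)) f < 1 then 0 else
        est (P ^ 24 * s) (∏ i ∈ range r, (2 * i + 1)) f := by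
      simp only [out, show neq n 0 = false from decide_eq_false n0, show neq (n % 2) 1 = false from
        decide_eq_false n1, Bool.false_or, Bool.cond_false, rg_eq (show r ≤ U.length by omega), MM, est,
        ← mul_div_assoc, div_lt_one q, nlt, Bool.cond_decide, show n / 2 = r by omega,
        show ((List.range r).map fun i => 2 * i + 1).prod = ∏ i ∈ range r, (2 * i + 1) from rfl]
      norm_cast
      split_ifs <;> simp
    rw [numPM_eq, ← o] at this
    exact (if_pos (hE _ this.1 this.2)).ge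
  · rw [show ∀ M D, est M D [] = D by simp [est]]
    exact inv_zero hP hr fun a b => Nat.le_add_right _ _

open Classical in
theorem scheme (G : SimpleGraph (Fin n)) {ε δ : ℚ} (e0 : 0 < ε) (e1 : ε < 1) (d0 : 0 < δ) {ρ : ℕ}
    (hρ : 2 ^ (8000 * (Nat.log 2 (n + ⌈1 / ε⌉₊) + 2) ^ 3) * (Nat.log 2 ⌈1 / δ⌉₊ + 2) ≤ ρ) (E : ℕ × ℕ → Prop)
    (hE : ∀ z : ℕ × ℕ, (1 - ε : ℝ) * numPM G ≤ z.1 / z.2 → z.1 / z.2 ≤ (1 + ε : ℝ) * numPM G → E z) :
    1 - δ ≤ coinProb ρ fun w => E (alg ((adjM G, ε, δ), w)) := by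
  obtain ⟨a1, a2⟩ := rat_q e0
  obtain ⟨a3, a4⟩ := rat_q d0
  have a5 := Nat.lt_size_self (δ.den / δ.num.toNat + 1)
  have a6 : (δ.den / δ.num.toNat + 1).size ≤ Nat.log 2 ⌈1 / δ⌉₊ + 2 := Nat.size_le.2 (by
    have := Nat.lt_pow_succ_log_self one_lt_two ⌈1 / δ⌉₊
    rw [pow_succ]
    omega)
  have e : coinProb ρ (fun w => E (alg ((adjM G, ε, δ), w))) =
      Ex ρ fun w => if E (alg ((adjM G, ε, δ), w)) then 1 else 0 := by
    rw [Ex_eq, coinProb, sum_boole]
  have fi : ∀ (f : Mc → Mc) (w : List Bool) z, w.foldl (fun z _ => f z) z = f^[w.length] z := fun f w => by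
    induction w with
    | nil => exact fun _ => rfl
    | cons a w ih => exact fun z => ih _
  rw [e, Ex_congr ρ fun w hw => by simp only [alg, run, par, List.map_const', hw, fi, Nat.size_eq_bits_len,
    show (adjM G).length = n by simp [adjM]]; rfl]
  generalize δ.den / δ.num.toNat + 1 = q at *
  generalize ε.den / ε.num.toNat = k at *
  generalize hP : 64 * (n + k + 2) = P
  refine le_trans (sub_le_sub_left ?_ _) (succ_prob G (by omega) (Nat.succ_pos _) (le_trans ?_ hρ)
    List.length_replicate (ε := ε) (by exact_mod_cast e1.le) ?_ E hE)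
  · have p1 : (128 : ℝ) ≤ P := by exact_mod_cast (by omega : 128 ≤ P)
    have b1 : (q : ℝ) ≤ Real.exp q.size := le_trans (by exact_mod_cast a5.le) (two_le_exp _)
    have b2 : (P : ℝ) ^ 12 ≤ Real.exp (12 * P) := by
      rw [show (12 : ℝ) * P = (12 : ℕ) * P by norm_num, Real.exp_nat_mul]
      exact pow_le_pow_left₀ (by linarith) (by linarith [Real.add_one_le_exp (P : ℝ)]) _
    have b3 : Real.exp (12 * P) * Real.exp (-(P ^ 2 * (q.size + 1 : ℕ))) * Real.exp q.size ≤ 1 := by
      rw [← Real.exp_add, ← Real.exp_add, Real.exp_le_one_iff]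
      push_cast
      nlinarith [mul_le_mul_of_nonneg_right (show 1 ≤ (P : ℝ) ^ 2 by nlinarith) (Nat.cast_nonneg (α := ℝ) q.size)]
    have d1 : (0 : ℝ) < δ := by exact_mod_cast d0
    have b4 := mul_le_mul_of_nonneg_left (a4.trans (mul_le_mul_of_nonneg_left b1 d1.le))
      (show 0 ≤ Real.exp (12 * P) * Real.exp (-(P ^ 2 * (q.size + 1 : ℕ))) by positivity)
    have b5 : (P : ℝ) ^ 11 * 2 ≤ P ^ 12 := by
      rw [pow_succ _ 11]
      exact mul_le_mul_of_nonneg_left (by linarith) (by positivity)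
    nlinarith [mul_le_mul_of_nonneg_right (b5.trans b2) (Real.exp_pos (-((P : ℝ) ^ 2 * (q.size + 1 : ℕ)))).le,
      mul_le_mul_of_nonneg_left b3 d1.le]
  · have := Nat.lt_pow_succ_log_self one_lt_two (n + ⌈1 / ε⌉₊)
    generalize Nat.log 2 (n + ⌈1 / ε⌉₊) = X at *
    have b1 : P.size ≤ 4 * (X + 2) := (Nat.size_le.2 (show P < 2 ^ (X + 1 + 7) by
      have := Nat.one_lt_two_pow (n := X + 1) (by omega)
      rw [pow_add]
      omega)).trans (by omega)
    have b2 := Nat.pow_le_pow_left b1 3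
    have b3 : 0 < (X + 2) ^ 3 := by positivity
    rw [mul_pow] at b2
    refine (Nat.mul_le_mul_left _ (show _ ≤ 2 * (Nat.log 2 ⌈1 / δ⌉₊ + 2) by omega)).trans ?_
    rw [← mul_assoc, ← pow_succ]
    exact Nat.mul_le_mul_right _ (Nat.pow_le_pow_right two_pos (by omega))
  · have : ((64 * (k + 1) : ℕ) : ℝ) ≤ P := by exact_mod_cast (by omega)
    rw [Nat.cast_mul] at this
    have e2 : (0 : ℝ) < ε := by exact_mod_cast e0
    have := mul_le_mul_of_nonneg_left this e2.le
    push_cast at *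
    linarith

end Vale.Agent.P308
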