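import Vale.Agent.P308.Comb

/-! Re-pairing the holes along an ultrametric. -/

namespace Vale.Agent.P308

open Finset

variable {n : ℕ}

/-- The costs are close to a tree metric. -/
structure Tre (k g : Fin n → Fin n → ℕ) (κ : ℕ) : Prop where
  sym : ∀ a b, g a b = g b a
  ult : ∀ t a b c, t ≤ g a b → t ≤ g b c → t ≤ g a c
  top : ∃ B, (∀ a b, g a b ≤ B) ∧ ∀ a, g a a = B
  apx : ∃ h : Fin n → ℤ, ∀ a b, a ≠ b → h a + h b ≤ k a b + g a b ∧ (k a b + g a b : ℤ) ≤ h a + h b + κ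

theorem even_inv {α : Type} {S : Finset α} {ι : α → α} (h : ∀ u ∈ S, ι u ∈ S ∧ ι (ι u) = u ∧ ι u ≠ u) :
    Even S.card := by
  rw [← ZMod.natCast_eq_zero_iff_even, card_eq_sum_ones, Nat.cast_sum]
  exact sum_involution (fun u _ => ι u) (fun _ _ => by decide) (fun u hu _ => (h u hu).2.2)
    (fun u hu => (h u hu).1) fun u hu => (h u hu).2.1

theorem split_inv {α : Type} {S : Finset α} {ι : α → α} (h : ∀ u ∈ S, ι u ∈ S ∧ ι (ι u) = u ∧ ι u ≠ u)
    (C : α → Prop) [DecidablePred C] :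
    ∃ e, (S.filter C).card = (S.filter fun u => C u ∧ ¬C (ι u)).card + 2 * e := by
  obtain ⟨e, he⟩ : Even (S.filter fun u => C u ∧ C (ι u)).card := even_inv (ι := ι) fun u hu => by
    rw [mem_filter] at *
    have := h u hu.1
    exact ⟨⟨this.1, hu.2.2, this.2.1.symm ▸ hu.2.1⟩, this.2⟩
  have := card_filter_add_card_filter_not (s := S.filter C) fun u => C (ι u)
  rw [filter_filter, filter_filter] at this
  exact ⟨e, by omega⟩

theorem greedy {g : Fin n → Fin n → ℕ} (sym : ∀ a b, g a b = g b a) (r : ℕ) : ∀ H : Finset (Fin n),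
    H.card = 2 * r → ∃ τ : Fin n → Fin n, (∀ u ∈ H, τ u ∈ H ∧ τ (τ u) = u ∧ τ u ≠ u) ∧
      ∀ u ∈ H, ∀ w ∈ H, u ≠ w → g u w ≤ g u (τ u) ∨ g u w ≤ g w (τ w) := by
  induction r with
  | zero =>
    intro H h
    rw [card_eq_zero.1 h]
    exact ⟨id, by simp, by simp⟩
  | succ r ih =>
    intro H h
    obtain ⟨⟨a, b⟩, h1, h2⟩ := exists_max_image H.offDiag (fun p => g p.1 p.2) (by
      obtain ⟨a, ha, b, hb, c⟩ := one_lt_card.1 (show 1 < H.card by omega)
      exact ⟨(a, b), mem_offDiag.2 ⟨ha, hb, c⟩⟩)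
    obtain ⟨ha, hb, c⟩ := mem_offDiag.1 h1
    dsimp only at *
    obtain ⟨τ, t1, t2⟩ := ih ((H.erase a).erase b) (by
      rw [card_erase_of_mem (by simp [hb, c.symm]), card_erase_of_mem ha]
      omega)
    simp only [mem_erase] at t1 t2
    refine ⟨fun u => if u = a then b else if u = b then a else τ u, fun u hu => ?_, fun u hu w hw e => ?_⟩
    · have := t1 u
      grind
    · have := t2 u
      have := h2 (u, w) (mem_offDiag.2 ⟨hu, hw, e⟩)
      have := sym a b
      grind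

theorem sum_z2 {M : Type} [AddCommMonoid M] (c : ZMod 2) (ψ : ZMod 2 → M) : ∑ b, ψ b = ψ c + ψ (c + 1) := by
  rcases z01 c with rfl | rfl
  · exact Fin.sum_univ_two ψ
  · exact (Fin.sum_univ_two ψ).trans (add_comm _ _)

theorem sumR {M : Type} [AddCommMonoid M] (R : Finset (Fin n × ZMod 2)) (F : Fin n → ZMod 2)
    (φ : Fin n × ZMod 2 → M) : ∑ p ∈ R, φ p = ∑ u ∈ univ.filter fun u => (u, F u) ∈ R, φ (u, F u) +
      ∑ u ∈ univ.filter fun u => (u, F u + 1) ∈ R, φ (u, F u + 1) := by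
  rw [sum_filter, sum_filter, ← sum_add_distrib, ← univ_inter R, ← filter_mem_eq_inter, sum_filter,
    Fintype.sum_prod_type]
  exact sum_congr rfl fun u _ => by simpa using sum_z2 (F u) fun b => if (u, b) ∈ R then φ (u, b) else 0

variable {x y : Fin n → Fin n} {k g : Fin n → Fin n → ℕ} {κ : ℕ}

theorem node (hx : PM x) (hy : PM y) (hT : Tre k g κ) (F : Fin n → ZMod 2) (R : Finset (Fin n × ZMod 2))
    (hc : ∀ p ∈ R, (zz x y p.2 p.1, p.2) ∈ R) (hw : ∀ u b, (u, b) ∉ R → F (zz x y b u) = F u)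
    (hp : ∀ t a, (∀ p ∈ R, t ≤ g a p.1 → t ≤ g a (zz x y p.2 p.1)) →
      Even (univ.filter fun u => (u, F u) ∈ R ∧ t ≤ g a u).card) :
    ∃ T η, PM T ∧ PM η ∧ df (fun u => zz x y (F u) u) T ≤ R.card ∧
      df (fun u => zz x y (F u + 1) u) η ≤ R.card ∧ En k T + En k η ≤ En k x + En k y + κ * R.card := by
  classical
  set H := univ.filter fun u => (u, F u) ∈ R with hH
  set H' := univ.filter fun u => (u, F u + 1) ∈ R with hH'
  have hz := zz_pm hx hy
  have iv : ∀ p ∈ R, (zz x y p.2 p.1, p.2) ∈ R ∧ (zz x y p.2 (zz x y p.2 p.1), p.2) = p ∧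
      (zz x y p.2 p.1, p.2) ≠ p := fun p hp =>
    ⟨hc p hp, by rw [(hz _ _).1], fun e => (hz _ _).2 (congrArg Prod.fst e)⟩
  have cd : R.card = H.card + H'.card := by simpa using sumR R F fun _ => (1 : ℕ)
  obtain ⟨r, e1⟩ : Even H.card := by
    rcases H.eq_empty_or_nonempty with e | ⟨a, -⟩
    · simp [e]
    · simpa using hp 0 a (by simp)
  obtain ⟨r', e2⟩ : Even H'.card := by
    obtain ⟨e, he⟩ := even_inv (ι := fun p => (zz x y p.2 p.1, p.2)) iv
    exact ⟨e - r, by omega⟩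
  obtain ⟨τ, t1, t2⟩ := greedy hT.sym r H (by omega)
  obtain ⟨τ', t1', t2'⟩ := greedy hT.sym r' H' (by omega)
  have pa : ∀ c : ZMod 2, ∀ u ∉ univ.filter fun u => (u, F u + c) ∈ R,
      zz x y (F u + c) u ∉ univ.filter (fun u => (u, F u + c) ∈ R) ∧
      zz x y (F (zz x y (F u + c) u) + c) (zz x y (F u + c) u) = u ∧ zz x y (F u + c) u ≠ u := fun c u hu => by
    simp only [mem_filter, mem_univ, true_and] at *
    rw [hw _ _ hu]
    exact ⟨fun e => hu (by simpa [(hz _ _).1] using hc _ e), hz _ _⟩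
  obtain ⟨T, p1, p2, p3⟩ := patch (A := fun u => zz x y (F u) u) (H := H) (by simpa [hH] using pa 0) t1 k
  obtain ⟨η, q1, q2, q3⟩ := patch (A := fun u => zz x y (F u + 1) u) (H := H') (pa 1) t1' k
  refine ⟨T, η, p1, q1, by omega, by omega, ?_⟩
  obtain ⟨B, b1, b2⟩ := hT.top
  have lay : ∀ t ∈ range (B + 1), (H.filter fun u => g u (τ u) < t).card +
      (H'.filter fun u => g u (τ' u) < t).card ≤ (R.filter fun p => g p.1 (zz x y p.2 p.1) < t).card := by
    intro t ht
    rw [mem_range] at ht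
    set cl : Fin n → Finset (Fin n) := fun u => univ.filter fun w => t ≤ g u w with hcl
    rw [card_eq_sum_card_fiberwise (f := cl) (t := univ) fun _ _ => mem_univ _,
      card_eq_sum_card_fiberwise (s := H'.filter _) (f := cl) (t := univ) fun _ _ => mem_univ _,
      card_eq_sum_card_fiberwise (s := R.filter _) (f := fun p => cl p.1) (t := univ) fun _ _ => mem_univ _,
      ← sum_add_distrib]
    refine sum_le_sum fun C _ => ?_
    by_cases c : ∃ a, cl a = C
    swap
    · rw [card_eq_zero.2 (filter_eq_empty_iff.2 fun u _ e => c ⟨u, e⟩),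
        card_eq_zero.2 (filter_eq_empty_iff.2 fun u _ e => c ⟨u, e⟩)]
      simp
    obtain ⟨a, rfl⟩ := c
    have e : ∀ u w, (g u w < t ∧ cl u = cl a) ↔ t ≤ g a u ∧ ¬t ≤ g a w := fun u w => by
      simp only [hcl, Finset.ext_iff, mem_filter, mem_univ, true_and]
      refine ⟨fun h => ⟨(h.2 u).1 (by rw [b2]; omega), fun c => ((h.2 w).2 c).not_gt h.1⟩, fun h =>
        ⟨not_le.1 fun c => h.2 (hT.ult _ _ _ _ h.1 c), fun z => ⟨hT.ult _ _ _ _ h.1,
          hT.ult _ _ _ _ (hT.sym u a ▸ h.1)⟩⟩⟩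
    have one : ∀ (H : Finset (Fin n)) (τ : Fin n → Fin n),
        (∀ u ∈ H, ∀ w ∈ H, u ≠ w → g u w ≤ g u (τ u) ∨ g u w ≤ g w (τ w)) →
        (H.filter fun u => t ≤ g a u ∧ ¬t ≤ g a (τ u)).card ≤ 1 := fun H τ h => card_le_one.2 fun u hu w hw => by
      rw [mem_filter] at *
      by_contra d
      have := h u hu.1 w hw.1 d
      have := hT.ult t u a w
      have := hT.ult t a u (τ u)
      have := hT.ult t a w (τ w)
      have := hT.sym u a
      omega
    simp only [filter_filter, e]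
    obtain ⟨e1, s1⟩ := split_inv t1 fun u => t ≤ g a u
    obtain ⟨e2, s2⟩ := split_inv t1' fun u => t ≤ g a u
    obtain ⟨e3, s3⟩ := split_inv (ι := fun p => (zz x y p.2 p.1, p.2)) iv fun p => t ≤ g a p.1
    have s4 := sumR R F fun p => if t ≤ g a p.1 then 1 else 0
    simp only [← card_filter, ← hH, ← hH'] at s4
    have o1 := one H τ t2
    have o2 := one H' τ' t2'
    have s5 : (R.filter fun p => t ≤ g a p.1 ∧ ¬t ≤ g a (zz x y p.2 p.1)).card = 0 →
        Even (H.filter fun u => t ≤ g a u).card := fun h => by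
      rw [hH, filter_filter]
      exact hp t a fun p h1 h2 => by simpa [h2] using filter_eq_empty_iff.1 (card_eq_zero.1 h) h1
    simp only [hH, hH', filter_filter, Nat.even_iff] at *
    omega
  have cake : ∀ {α : Type} (S : Finset α) (φ : α → ℕ), (∀ p, φ p ≤ B) →
      ∑ t ∈ range (B + 1), (S.filter fun p => φ p < t).card + ∑ p ∈ S, φ p = S.card * B := fun S φ h => by
    simp only [card_filter]
    rw [sum_comm, ← sum_add_distrib, ← smul_eq_mul, ← sum_const]
    refine sum_congr rfl fun p _ => ?_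
    rw [← card_filter, show (range (B + 1)).filter (fun t => φ p < t) = Ioc (φ p) B by
      ext; simp [Nat.lt_succ_iff, and_comm], Nat.card_Ioc, Nat.sub_add_cancel (h p)]
  have l1 := sum_le_sum lay
  have c1 := cake H (fun u => g u (τ u)) fun _ => b1 _ _
  have c2 := cake H' (fun u => g u (τ' u)) fun _ => b1 _ _
  have c3 := cake R (fun p => g p.1 (zz x y p.2 p.1)) fun _ => b1 _ _
  rw [sum_add_distrib] at l1
  rw [cd, add_mul] at c3
  obtain ⟨h, hh⟩ := hT.apx
  have up : ∀ (H : Finset (Fin n)) (τ : Fin n → Fin n), (∀ u ∈ H, τ u ∈ H ∧ τ (τ u) = u ∧ τ u ≠ u) →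
      ((∑ u ∈ H, k u (τ u) + ∑ u ∈ H, g u (τ u) : ℕ) : ℤ) ≤ 2 * ∑ u ∈ H, h u + κ * H.card := fun H τ t => by
    have := sum_le_sum fun u (hu : u ∈ H) => (hh u (τ u) (t u hu).2.2.symm).2
    simp only [sum_add_distrib, sum_const, nsmul_eq_mul] at this
    rw [sum_nbij' (g := h) τ τ (fun u hu => (t u hu).1) (fun u hu => (t u hu).1) (fun u hu => (t u hu).2.1)
      (fun u hu => (t u hu).2.1) fun _ _ => rfl] at this
    push_cast
    linarith
  have lo := sum_le_sum fun p (_ : p ∈ R) => (hh p.1 (zz x y p.2 p.1) (hz _ _).2.symm).1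
  simp only [sum_add_distrib] at lo
  rw [sum_nbij' (g := fun p => h p.1) (fun p => (zz x y p.2 p.1, p.2)) (fun p => (zz x y p.2 p.1, p.2))
    (fun u hu => (iv u hu).1) (fun u hu => (iv u hu).1) (fun u hu => (iv u hu).2.1)
    (fun u hu => (iv u hu).2.1) fun _ _ => rfl, sumR R F fun p => h p.1,
    sumR R F fun p => (k p.1 (zz x y p.2 p.1) : ℤ)] at lo
  have u1 := up H τ t1
  have u2 := up H' τ' t1'
  have m := En_mix (x := x) (y := y) k F
  rw [cd]
  zify at *
  linarith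

end Vale.Agent.P308
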