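import Vale.Agent.P308.Node
import Mathlib.Analysis.SpecialFunctions.Sqrt

/-! Canonical paths with logarithmically many holes. -/

namespace Vale.Agent.P308

open Finset

variable {n : ℕ} {x y : Fin n → Fin n} {k g : Fin n → Fin n → ℕ} {κ : ℕ}

/-- The geodesics of two edges of the walk meet. -/
def Tch (g : Fin n → Fin n → ℕ) (V : ℕ → Fin n) (i j : ℕ) : Prop :=
  ∃ a b, (a = V i ∨ a = V (i + 1)) ∧ (b = V j ∨ b = V (j + 1)) ∧
    g (V i) (V (i + 1)) ≤ g a b ∧ g (V j) (V (j + 1)) ≤ g a b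

theorem chord (hT : Tre k g κ) (V : ℕ → Fin n) {i j : ℕ} (h : i + 2 ≤ j) (t : Tch g V i j) :
    ∃ l, i < l ∧ l < j ∧ Tch g V i l ∧ Tch g V l j := by
  obtain ⟨B, b1, b2⟩ := hT.top
  obtain ⟨a, b, ha, hb, h1, h2⟩ := t
  have ch : ∀ t ≤ B, ∀ a b, a ≤ b → (∀ p, a ≤ p → p < b → t ≤ g (V p) (V (p + 1))) → t ≤ g (V a) (V b) := by
    intro t ht a b hab
    induction b, hab using Nat.le_induction with
    | base => exact fun _ => (b2 _).symm ▸ ht
    | succ b hab ih => exact fun h => hT.ult _ _ _ _ (ih fun p c d => h p c (by omega)) (h b hab (by omega))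
  set t := max (g (V i) (V (i + 1))) (g (V j) (V (j + 1))) with ht
  have tb : t ≤ B := max_le (b1 _ _) (b1 _ _)
  have tg : t ≤ g a b := max_le h1 h2
  rcases ((Ioo i j).filter fun p => g (V p) (V (p + 1)) < t).eq_empty_or_nonempty with e | e
  · obtain ⟨l, l1, l2⟩ := exists_min_image (Ioo i j) (fun p => g (V p) (V (p + 1))) ⟨i + 1, by simp; omega⟩
    have l3 := filter_eq_empty_iff.1 e l1
    simp only [mem_Ioo] at l1 l2
    have c1 := ch _ (b1 _ _) (i + 1) l (by omega) fun p c d => l2 p (by omega)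
    have c2 := ch _ (b1 _ _) (l + 1) j (by omega) fun p c d => l2 p (by omega)
    exact ⟨l, l1.1, l1.2, ⟨_, _, .inr rfl, .inl rfl, by omega, c1⟩, _, _, .inr rfl, .inl rfl, c2, by omega⟩
  rcases le_total (g (V i) (V (i + 1))) (g (V j) (V (j + 1))) with c | c
  · obtain ⟨l, l1, l2⟩ := exists_max_image _ id e
    simp only [mem_filter, mem_Ioo, id] at l1 l2
    have c1 := ch t tb (l + 1) j (by omega) fun p c d => not_lt.1 fun f => by
      have := l2 p ⟨by omega, f⟩
      omega
    have c2 : t ≤ g b (V j) := by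
      rcases hb with rfl | rfl
      · rwa [b2]
      · rw [hT.sym]; omega
    have c3 := hT.ult _ _ _ _ (hT.ult _ _ _ _ tg c2) (hT.sym _ _ ▸ c1)
    exact ⟨l, l1.1.1, l1.1.2, ⟨_, _, ha, .inr rfl, by omega, by omega⟩, _, _, .inr rfl, .inl rfl, by omega,
      by omega⟩
  · obtain ⟨l, l1, l2⟩ := exists_min_image _ id e
    simp only [mem_filter, mem_Ioo, id] at l1 l2
    have c1 := ch t tb (i + 1) l (by omega) fun p c d => not_lt.1 fun f => by
      have := l2 p ⟨by omega, f⟩
      omega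
    have c2 : t ≤ g (V (i + 1)) a := by
      rcases ha with rfl | rfl
      · rw [hT.sym]; omega
      · rwa [b2]
    have c3 := hT.ult _ _ _ _ (hT.ult _ _ _ _ (hT.sym _ _ ▸ c1) c2) tg
    exact ⟨l, l1.1.1, l1.1.2, ⟨_, _, .inr rfl, .inl rfl, by omega, by omega⟩, _, _, .inl rfl, hb, by omega,
      by omega⟩

/-- The walls of `I` lie in `R` and pair up along meeting geodesics. -/
def PI (g : Fin n → Fin n → ℕ) (V : ℕ → Fin n) (m : ℕ) (I : ℕ → ZMod 2) (R : Finset ℕ) : Prop :=
  (∀ p ∈ R, p < m) ∧ I m = I 0 ∧ (∀ p < m, p ∉ R → I (p + 1) = I p) ∧ ∀ γ : ℕ → ZMod 2,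
    (∀ p ∈ R, ∀ q ∈ R, Tch g V p q → γ p = γ q) → ∑ p ∈ range m, γ p * (I p + I (p + 1)) = 0

/-- Indicator of an interval. -/
def ind (i j p : ℕ) : ZMod 2 := if i < p ∧ p ≤ j then 1 else 0

theorem ind_add {i l j : ℕ} (h : i ≤ l) (h' : l ≤ j) : ind i l + ind l j = ind i j := funext fun p => by
  simp only [Pi.add_apply, ind]
  split_ifs <;> first | rfl | omega

theorem PI.tog {V : ℕ → Fin n} {m i j : ℕ} {I : ℕ → ZMod 2} {R : Finset ℕ} (h : PI g V m I R) (h1 : i < j)
    (h2 : j < m) (t : Tch g V i j) : PI g V m (I + ind i j) (insert i (insert j R)) := by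
  obtain ⟨a, b, c, d⟩ := h
  have e : ∀ p, ind i j p + ind i j (p + 1) = (if p = i then 1 else 0) + if p = j then 1 else 0 := fun p => by
    simp only [ind]
    split_ifs <;> first | rfl | omega
  refine ⟨by grind, by simp [ind, b, h2], fun p hp e => ?_, fun γ hγ => ?_⟩
  · simp only [mem_insert, not_or] at e
    simp only [Pi.add_apply, c p hp e.2.2, ind]
    congr 1
    split_ifs <;> first | rfl | omega
  · simp only [Pi.add_apply, add_add_add_comm (I _), e, mul_add (γ _) (I _ + _), sum_add_distrib,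
      d γ fun p hp q hq => hγ p (by simp [hp]) q (by simp [hq])]
    simp only [mul_add, mul_ite, mul_one, mul_zero, sum_add_distrib, sum_ite_eq', mem_range, h2, h1.trans h2,
      if_true, hγ i (by simp) j (by simp) t, zero_add]
    exact CharTwo.add_self_eq_zero _

/-- The flipped set of an index set. -/
def FI (V : ℕ → Fin n) (m : ℕ) (b : Fin n → ZMod 2) (I : ℕ → ZMod 2) (u : Fin n) : ZMod 2 :=
  b u + ∑ i ∈ range m, if V i = u then I i else 0

section cy

variable (hx : PM x) (hy : PM y) (hT : Tre k g κ) {v : Fin n} {m : ℕ} (m2 : 2 ≤ m) (m0 : (m : ZMod 2) = 0)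
  (mv : vs x y v m = v) (inj : ∀ i < m, ∀ j < m, vs x y v i = vs x y v j → i = j)
  (orb : ∀ u, Orb x y v u ↔ ∃ i < m, vs x y v i = u) {b : Fin n → ZMod 2} (b0 : ∀ u, Orb x y v u → b u = 0)
  (bc : ∀ u c, b (zz x y c u) = b u)

include orb in
theorem FI_off (I : ℕ → ZMod 2) {u : Fin n} (h : ¬Orb x y v u) : FI (vs x y v) m b I u = b u := by
  rw [FI, sum_eq_zero fun i hi => if_neg fun e => h ((orb u).2 ⟨i, mem_range.1 hi, e⟩), add_zero]

include inj orb b0 in
theorem FI_on (I : ℕ → ZMod 2) {i : ℕ} (h : i < m) : FI (vs x y v) m b I (vs x y v i) = I i := by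
  rw [FI, b0 _ ((orb _).2 ⟨i, h, rfl⟩), zero_add, sum_eq_single_of_mem i (mem_range.2 h), if_pos rfl]
  exact fun j hj c => if_neg fun e => c (inj j (mem_range.1 hj) i h e)

include m2 m0 mv orb in
theorem edge {u : Fin n} (o : Orb x y v u) (c : ZMod 2) :
    ∃ p < m, c = (p : ℕ) ∧ (u = vs x y v p ∨ u = vs x y v (p + 1)) := by
  have par : ∀ a b : ℕ, (a : ZMod 2) = b ↔ a % 2 = b % 2 := fun a b => ZMod.natCast_eq_natCast_iff' a b 2
  have me : m % 2 = 0 := (par m 0).1 m0
  obtain ⟨i, hi, rfl⟩ := (orb u).1 o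
  obtain ⟨c, rfl⟩ : ∃ c' : ℕ, c = c' := ⟨c.val, (ZMod.natCast_zmod_val c).symm⟩
  by_cases d : c % 2 = i % 2
  · exact ⟨i, hi, (par _ _).2 d, .inl rfl⟩
  · rcases i with _ | i
    · exact ⟨m - 1, by omega, (par _ _).2 (by omega), .inr (by rw [Nat.sub_add_cancel (by omega), mv]; rfl)⟩
    · exact ⟨i, by omega, (par _ _).2 (by omega), .inr rfl⟩

include m2 mv inj orb b0 in
theorem FI_on' {I : ℕ → ZMod 2} (h : I m = I 0) {i : ℕ} (hi : i ≤ m) :
    FI (vs x y v) m b I (vs x y v i) = I i := by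
  rcases hi.lt_or_eq with c | rfl
  · exact FI_on inj orb b0 I c
  · rw [mv, h]
    exact FI_on inj orb b0 I (i := 0) (by omega)

include hx hy m2 m0 mv inj orb b0 bc in
theorem wall {I : ℕ → ZMod 2} (h : I m = I 0) (u : Fin n) (c : ZMod 2) :
    FI (vs x y v) m b I (zz x y c u) = FI (vs x y v) m b I u ∨
      ∃ p < m, c = (p : ℕ) ∧ (u = vs x y v p ∨ u = vs x y v (p + 1)) ∧ I (p + 1) ≠ I p := by
  by_cases o : Orb x y v u
  · obtain ⟨p, hp, rfl, e⟩ := edge m2 m0 mv orb o c
    by_cases d : I (p + 1) = I p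
    · left
      rcases e with rfl | rfl
      · exact (FI_on' m2 mv inj orb b0 h hp).trans (d.trans (FI_on' m2 mv inj orb b0 h hp.le).symm)
      · rw [vs, (zz_pm hx hy _ _).1, ← vs, FI_on' m2 mv inj orb b0 h hp, FI_on' m2 mv inj orb b0 h hp.le, d]
    · exact .inr ⟨p, hp, rfl, e, d⟩
  · rw [FI_off orb I o, FI_off orb I fun c => o (c.back hx hy), bc]
    exact .inl rfl

include hx hy hT m2 m0 mv inj orb b0 bc in
theorem nodeI {I : ℕ → ZMod 2} {R : Finset ℕ} (h : PI g (vs x y v) m I R) :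
    ∃ T η, PM T ∧ PM η ∧ df (fun u => zz x y (FI (vs x y v) m b I u) u) T ≤ 2 * R.card ∧
      df (fun u => zz x y (FI (vs x y v) m b I u + 1) u) η ≤ 2 * R.card ∧
      En k T + En k η ≤ En k x + En k y + κ * (2 * R.card) := by
  obtain ⟨h1, h2, h3, h4⟩ := h
  set V := vs x y v with hV
  have bk : ∀ i : ℕ, zz x y i (V (i + 1)) = V i := fun i => (zz_pm hx hy _ _).1
  have par : ∀ a b : ℕ, (a : ZMod 2) = b ↔ a % 2 = b % 2 := fun a b => ZMod.natCast_eq_natCast_iff' a b 2
  have me : m % 2 = 0 := (par m 0).1 m0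
  have on : ∀ i ≤ m, FI V m b I (V i) = I i := fun i => FI_on' m2 mv inj orb b0 h2
  set R' := (R ×ˢ range 2).image fun q => (V (q.1 + q.2), (q.1 : ZMod 2)) with hR
  have mem : ∀ p, p ∈ R' ↔ ∃ i ∈ R, p = (V i, (i : ZMod 2)) ∨ p = (V (i + 1), (i : ZMod 2)) := fun p => by
    simp only [hR, mem_image, mem_product, mem_range, Prod.exists]
    refine ⟨fun ⟨i, e, h, c⟩ => ⟨i, h.1, ?_⟩, fun ⟨i, h, c⟩ => c.elim (fun c => ⟨i, 0, ⟨h, by omega⟩, c.symm⟩)
      fun c => ⟨i, 1, ⟨h, by omega⟩, c.symm⟩⟩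
    obtain ⟨-, h⟩ := h
    interval_cases e
    exacts [.inl c.symm, .inr c.symm]
  have cd : R'.card ≤ 2 * R.card := card_image_le.trans (by rw [card_product, card_range, mul_comm])
  obtain ⟨T, η, a1, a2, a3, a4, a5⟩ := node hx hy hT (FI V m b I) R' (fun p hp => by
    obtain ⟨i, hi, rfl | rfl⟩ := (mem p).1 hp
    exacts [(mem _).2 ⟨i, hi, .inr rfl⟩, (mem _).2 ⟨i, hi, .inl (by rw [bk])⟩]) (fun u c hu =>
    (wall hx hy m2 m0 mv inj orb b0 bc h2 u c).resolve_right fun ⟨p, hp, e, f, d⟩ => d (h3 p hp fun c =>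
      hu ((mem _).2 ⟨p, c, by rcases f with f | f <;> simp [e, f, hV]⟩))) fun t a hc => by
    have cl : ∀ p ∈ R, t ≤ g a (V p) ↔ t ≤ g a (V (p + 1)) := fun p hp =>
      ⟨hc _ ((mem _).2 ⟨p, hp, .inl rfl⟩), fun c => bk p ▸ hc _ ((mem _).2 ⟨p, hp, .inr rfl⟩) c⟩
    have s1 := h4 (fun p => if t ≤ g a (V p) then 1 else 0) fun p hp q hq ⟨c, d, e1, e2, e3, e4⟩ => by
      have := cl p hp
      have := cl q hq
      have := hT.ult t (V p) a (V (p + 1))
      have := hT.ult t (V q) a (V (q + 1))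
      have := hT.ult t a c d
      have := hT.ult t a d c
      have := hT.sym c d
      have := hT.sym a (V p)
      have := hT.sym a (V q)
      have : t ≤ g a (V p) ↔ t ≤ g a (V q) := by
        rcases e1 with rfl | rfl <;> rcases e2 with rfl | rfl <;> omega
      simp only [this]
    have s2 := sumR R' (FI V m b I) fun p => if p.2 = FI V m b I p.1 ∧ t ≤ g a p.1 then (1 : ZMod 2) else 0
    simp only [add_eq_left, one_ne_zero, false_and, if_false, sum_const_zero, add_zero, true_and,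
      sum_boole, filter_filter] at s2
    rw [← ZMod.natCast_eq_zero_iff_even, ← s2, card_filter, Nat.cast_sum, hR, sum_image, sum_product, ← s1,
      ← sum_subset (fun p hp => mem_range.2 (h1 p hp)) fun p hp c => by
        rw [h3 p (mem_range.1 hp) c, CharTwo.add_self_eq_zero, mul_zero]]
    · refine sum_congr rfl fun p hp => ?_
      simp only [sum_range_succ, range_zero, sum_empty, zero_add, add_zero, on _ (h1 p hp), on _ (h1 p hp).le,
        ← cl p hp]
      generalize (p : ZMod 2) = c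
      generalize I p = d
      generalize I (p + 1) = e
      by_cases f : t ≤ g a (V p)
      · simp only [f, and_true, if_true]
        revert c d e
        decide
      · simp [f]
    · rintro ⟨p, e⟩ hp ⟨q, f⟩ hq c
      simp only [coe_product, Set.mem_prod, mem_coe, mem_range, Prod.mk.injEq, par] at *
      have := h1 p hp.1
      have := h1 q hq.1
      have i1 : ∀ i ≤ m, V (i % m) = V i := fun i hi => by
        rcases hi.lt_or_eq with c | rfl
        · rw [Nat.mod_eq_of_lt c]
        · rw [Nat.mod_self, mv]; rfl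
      have i2 := inj _ (Nat.mod_lt (p + e) (by omega)) _ (Nat.mod_lt (q + f) (by omega))
        (by rw [i1 _ (by omega), i1 _ (by omega), c.1])
      have i3 : ∀ i ≤ m, i % m = i ∧ i < m ∨ i % m = 0 ∧ i = m := fun i hi => by
        rcases hi.lt_or_eq with c | rfl
        · exact .inl ⟨Nat.mod_eq_of_lt c, c⟩
        · simp
      have := i3 (p + e) (by omega)
      have := i3 (q + f) (by omega)
      omega
  exact ⟨T, η, a1, a2, a3.trans cd, a4.trans cd, a5.trans (by gcongr)⟩

theorem wt_le' {T η : Fin n → Fin n} {c d : ℕ} (hx : PM x) (hy : PM y) (hT : PM T) (hη : PM η)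
    (h : En k T + En k η + d ≤ En k x + En k y + c) :
    wt k x * wt k y ≤ 2 ^ c * (1 / 2) ^ d * (wt k T * wt k η) := by
  rw [wt_pm hx, wt_pm hy, wt_pm hT, wt_pm hη, ← pow_add, ← pow_add, mul_assoc, ← pow_add, add_comm d]
  refine le_trans (le_of_eq ?_) (mul_le_mul_of_nonneg_left (pow_le_pow_of_le_one (by norm_num) (by norm_num) h)
    (by positivity))
  rw [pow_add _ _ c, mul_left_comm, ← mul_pow]
  simp

theorem wt_le {T η : Fin n → Fin n} {c : ℕ} (hx : PM x) (hy : PM y) (hT : PM T) (hη : PM η)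
    (h : En k T + En k η ≤ En k x + En k y + c) : wt k x * wt k y ≤ 2 ^ c * (wt k T * wt k η) := by
  simpa using wt_le' (d := 0) hx hy hT hη h

variable {s j : ℕ} (hb : Cond x y v j b) {f : (Fin n → Fin n) → ℝ} {r : ℝ}
  (hs : ∀ F F' T T', Rep x y k s (2 ^ (κ * s)) v j F T → Rep x y k s (2 ^ (κ * s)) v j F' T' → df F F' ≤ 1 →
    |f T - f T'| ≤ r)

include hx hy hT m2 m0 mv inj orb b0 bc hb in
theorem repI {I : ℕ → ZMod 2} {R : Finset ℕ} (h : PI g (vs x y v) m I R) (hR : 2 * R.card ≤ s) :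
    ∃ T, Rep x y k s (2 ^ (κ * s)) v j (FI (vs x y v) m b I) T := by
  obtain ⟨T, η, a1, a2, a3, a4, a5⟩ := nodeI hx hy hT m2 m0 mv inj orb b0 bc h
  exact ⟨T, fun u hu => by rw [FI_off orb I hu]; exact hb u hu, a3.trans hR, η, a4.trans hR,
    wt_le hx hy a1 a2 (a5.trans (by gcongr))⟩

include hx hy hT m2 m0 mv inj orb b0 bc hb hs in
theorem pathI (d : ℕ) : ∀ i l e I R, l = i + d → 0 < d → l < m → Tch g (vs x y v) i l → d ≤ 2 ^ e →
    PI g (vs x y v) m I R → 2 * (R.card + 2 * (e + 1)) ≤ s → ∀ T T',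
    Rep x y k s (2 ^ (κ * s)) v j (FI (vs x y v) m b I) T →
    Rep x y k s (2 ^ (κ * s)) v j (FI (vs x y v) m b (I + ind i l)) T' → |f T - f T'| ≤ d * r := by
  induction d using Nat.strong_induction_on with
  | _ d ih =>
  intro i l e I R e1 d0 lm t de hI hR T T' h h'
  rcases Nat.lt_or_ge 1 d with c | c
  · obtain ⟨p, p1, p2, t1, t2⟩ := chord hT _ (by omega) t
    obtain ⟨e, rfl⟩ : ∃ e', e = e' + 1 := ⟨e - 1, by rcases e with _ | e <;> simp at *; omega⟩
    rw [pow_succ] at de
    have cd : ∀ a b : ℕ, (insert a (insert b R)).card ≤ R.card + 2 := fun a b =>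
      (card_insert_le _ _).trans (Nat.succ_le_succ (card_insert_le _ _))
    have e2 : (d : ℝ) = (p - i : ℕ) + (l - p : ℕ) := by norm_cast; omega
    rw [e2, add_mul]
    rcases le_total (l - p) (p - i) with o | o
    · have q := hI.tog p1 (by omega) t1
      have := cd i p
      obtain ⟨U, hU⟩ := repI (s := s) hx hy hT m2 m0 mv inj orb b0 bc hb q (by omega)
      exact (abs_sub_le _ (f U) _).trans (add_le_add
        (ih _ (by omega) i p (e + 1) I R (by omega) (by omega) (by omega) t1 (by omega) hI hR _ _ h hU)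
        (ih _ (by omega) p l e _ _ (by omega) (by omega) lm t2 (by omega) q (by omega) _ _ hU
          (by rwa [add_assoc, ind_add p1.le p2.le])))
    · have q := hI.tog p2 lm t2
      have := cd p l
      obtain ⟨U, hU⟩ := repI (s := s) hx hy hT m2 m0 mv inj orb b0 bc hb q (by omega)
      rw [add_comm]
      exact (abs_sub_le _ (f U) _).trans (add_le_add
        (ih _ (by omega) p l (e + 1) I R (by omega) (by omega) lm t2 (by omega) hI hR _ _ h hU)
        (ih _ (by omega) i p e _ _ (by omega) (by omega) (by omega) t1 (by omega) q (by omega) _ _ hU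
          (by rwa [add_assoc, add_comm (ind p l), ind_add p1.le p2.le])))
  · obtain rfl : d = 1 := by omega
    rw [Nat.cast_one, one_mul]
    refine hs _ _ _ _ h h' ((card_le_card fun u hu => ?_).trans (card_singleton (vs x y v l)).le)
    rw [mem_singleton]
    by_contra o
    refine (mem_filter.1 hu).2 (congrArg _ (sum_congr rfl fun p _ => ?_))
    split_ifs with z
    · rw [Pi.add_apply, ind, if_neg (fun c => o (by rw [← z, show p = l by omega])), add_zero]
    · rfl

end cy

open Classical in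
/-- The components of the first `j` vertices. -/
noncomputable def base (x y : Fin n → Fin n) (j : ℕ) (u : Fin n) : ZMod 2 :=
  if ∃ a : Fin n, (a : ℕ) < j ∧ Orb x y a u then 1 else 0

theorem base_ne (j : ℕ) (u : Fin n) : base x y j u ≠ 0 ↔ ∃ a : Fin n, (a : ℕ) < j ∧ Orb x y a u := by
  unfold base
  split_ifs with h <;> simp [h]

theorem Orb.symm (hx : PM x) (hy : PM y) {v u : Fin n} (h : Orb x y v u) : Orb x y u v := by
  induction h with
  | refl => exact .refl
  | tail _ h ih =>
    refine .head ?_ ih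
    rcases h with rfl | rfl
    exacts [.inl (hx _).1.symm, .inr (hy _).1.symm]

theorem rep_closed (hx : PM x) (hy : PM y) {F : Fin n → ZMod 2} (hF : ∀ u c, F (zz x y c u) = F u)
    {v : Fin n} {j : ℕ} (h : Cond x y v j F) (s c : ℕ) :
    Rep x y k s (2 ^ c) v j F fun u => zz x y (F u) u :=
  ⟨h, by simp [df_self], fun u => zz x y (F u + 1) u, by simp [df_self], wt_le hx hy
    (fun u => by simpa only [hF] using zz_pm hx hy _ u) (fun u => by simpa only [hF] using zz_pm hx hy _ u)
    ((En_mix k F).trans_le (Nat.le_add_right _ _))⟩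

theorem path (hx : PM x) (hy : PM y) (hT : Tre k g κ) {e : ℕ} (he : n ≤ 2 ^ e) {f : (Fin n → Fin n) → ℝ} {r : ℝ}
    (r0 : 0 ≤ r) (hs : ∀ v : Fin n, ∀ F F' T T', Rep x y k (4 * (e + 1)) (2 ^ (κ * (4 * (e + 1)))) v v F T →
      Rep x y k (4 * (e + 1)) (2 ^ (κ * (4 * (e + 1)))) v v F' T' → df F F' ≤ 1 → |f T - f T'| ≤ r) :
    |f x - f y| ≤ n * n * r := by
  have bc : ∀ j u c, base x y j (zz x y c u) = base x y j u := fun j u c => by
    classical
    exact if_congr (exists_congr fun a => and_congr_right' ⟨fun h => h.back hx hy, fun h => h.step c⟩) rfl rfl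
  have key : ∀ j ≤ n, |f x - f fun u => zz x y (base x y j u) u| ≤ j * (n * r) := fun j hj => by
    induction j with
    | zero => simp [base, zz]
    | succ j ih =>
      classical
      refine (abs_sub_le _ _ _).trans ((add_le_add (ih (by omega)) (?_ : _ ≤ n * r)).trans_eq
        (by push_cast; ring))
      obtain ⟨v, rfl⟩ : ∃ v : Fin n, j = v := ⟨⟨j, hj⟩, rfl⟩
      have sc : ∀ u, (∃ a : Fin n, (a : ℕ) < v + 1 ∧ Orb x y a u) ↔
          (∃ a : Fin n, (a : ℕ) < v ∧ Orb x y a u) ∨ Orb x y v u := fun u => by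
        simp only [Nat.lt_succ_iff_lt_or_eq, or_and_right, exists_or, Fin.val_inj, exists_eq_left]
      by_cases c : ∃ a : Fin n, (a : ℕ) < v ∧ Orb x y a v
      · have : base x y (v + 1) = base x y v := funext fun u => if_congr ((sc u).trans
          (or_iff_left_of_imp fun h => c.imp fun a t => And.intro t.1 (t.2.trans h))) rfl rfl
        rw [this, sub_self, abs_zero]
        positivity
      obtain ⟨m, m2, mn, m0, mv, inj, orb⟩ := cyc hx hy v
      have b0 : ∀ u, Orb x y v u → base x y v u = 0 := fun u h =>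
        if_neg fun t => c (t.imp fun a t => ⟨t.1, t.2.trans (h.symm hx hy)⟩)
      have hb : Cond x y v v (base x y v) := fun u _ => base_ne _ _
      have p0 : PI g (vs x y v) m 0 ∅ := ⟨by simp, rfl, by simp, by simp⟩
      obtain ⟨B, b1, b2⟩ := hT.top
      have t : Tch g (vs x y v) 0 (m - 1) := ⟨v, v, .inl rfl, .inr (by rw [Nat.sub_add_cancel (by omega), mv]),
        (b2 v).symm ▸ b1 _ _, (b2 v).symm ▸ b1 _ _⟩
      obtain ⟨U, hU⟩ := repI (s := 4 * (e + 1)) hx hy hT m2 m0 mv inj orb b0 (bc v) hb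
        (p0.tog (by omega) (by omega) t) (by have := card_le_two (a := 0) (b := m - 1); simp at *; omega)
      have a1 := pathI hx hy hT m2 m0 mv inj orb b0 (bc v) hb (hs v) (m - 1) 0 (m - 1) e 0 ∅ (by omega)
        (by omega) (by omega) t (by omega) p0 (by simp; omega) _ _ (by
          rw [show FI (vs x y v) m (base x y v) 0 = base x y v from funext fun u => by simp [FI]]
          exact rep_closed hx hy (bc v) hb _ _) hU
      have a2 := hs v _ _ _ _ hU (rep_closed hx hy (bc (v + 1)) (fun u hu => by rw [base_ne, sc, or_iff_left hu]) _ _)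
        ((card_le_card fun u hu => mem_singleton.2 (by
          by_contra o
          refine (mem_filter.1 hu).2 ?_
          by_cases z : Orb x y v u
          · obtain ⟨i, hi, rfl⟩ := (orb u).1 z
            rw [FI_on inj orb b0 _ hi, base, if_pos ((sc _).2 (.inr z)), zero_add, ind,
              if_pos ⟨Nat.pos_of_ne_zero fun c => o (by rw [c, vs]), by omega⟩]
          · rw [FI_off orb _ z]
            exact if_congr ((sc u).trans (or_iff_left z)).symm rfl rfl)).trans (card_singleton v).le)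
      have a3 : ((m - 1 : ℕ) + 1 : ℝ) ≤ n := by norm_cast; omega
      nlinarith [abs_sub_le (f fun u => zz x y (base x y v u) u) (f U)
        (f fun u => zz x y (base x y (v + 1) u) u), mul_le_mul_of_nonneg_right a3 r0]
  have := key n le_rfl
  rwa [show (fun u => zz x y (base x y n u) u) = y from funext fun u => by
    rw [base, if_pos ⟨u, u.2, .refl⟩]; rfl, ← mul_assoc] at this

open Classical in
theorem poin (hT : Tre k g κ) {e : ℕ} (he : n ≤ 2 ^ e) (f : (Fin n → Fin n) → ℝ) (h0 : ∑ x, wt k x * f x = 0)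
    (hZ : 0 < ∑ x, wt k x) : ∑ x, wt k x * f x ^ 2 ≤ n ^ 5 * (n ^ 2 + 1) ^ (8 * (e + 1)) * 2 ^ (κ * (4 * (e + 1))) *
      ∑ T, ∑ U, if df T U ≤ 8 * e + 9 then min (wt k T) (wt k U) * (f T - f U) ^ 2 else 0 := by
  set Q : ℝ := 2 ^ (κ * (4 * (e + 1))) with hQ
  set St := fun x y T U : Fin n → Fin n => df T U ≤ 8 * e + 9 ∧ ∃ v : Fin n,
    (∃ F, Rep x y k (4 * (e + 1)) Q v v F T) ∧ ∃ F, Rep x y k (4 * (e + 1)) Q v v F U with hSt
  have a1 : ∀ x y, wt k x * wt k y * (f x - f y) ^ 2 ≤
      n ^ 4 * ∑ T, ∑ U, (if St x y T U then wt k x * wt k y else 0) * (f T - f U) ^ 2 := fun x y => by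
    set S := ∑ T, ∑ U, if St x y T U then (f T - f U) ^ 2 else 0 with hS
    have nn : ∀ T U, 0 ≤ if St x y T U then (f T - f U) ^ 2 else 0 := fun T U => by split_ifs <;> positivity
    have S0 : 0 ≤ S := sum_nonneg fun _ _ => sum_nonneg fun _ _ => nn _ _
    rw [show ∑ T, ∑ U, (if St x y T U then wt k x * wt k y else 0) * (f T - f U) ^ 2 = wt k x * wt k y * S by
      simp [hS, mul_sum], mul_left_comm]
    by_cases c : PM x ∧ PM y
    · refine mul_le_mul_of_nonneg_left ?_ (mul_nonneg (wt_nonneg _ _) (wt_nonneg _ _))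
      have := path c.1 c.2 hT he (f := f) (Real.sqrt_nonneg S) fun v F F' T U h h' d => Real.abs_le_sqrt
        (le_trans (by
          refine (if_pos ⟨?_, v, ⟨F, h⟩, F', h'⟩).ge
          have := df_tri T (fun u => zz x y (F u) u) U
          have := df_tri (fun u => zz x y (F u) u) (fun u => zz x y (F' u) u) U
          have := df_comm T fun u => zz x y (F u) u
          have : df (fun u => zz x y (F u) u) (fun u => zz x y (F' u) u) ≤ df F F' := card_le_card fun u => by
            simp only [mem_filter, mem_univ, true_and]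
            exact mt fun e => by rw [e]
          have := h.2.1
          have := h'.2.1
          omega) ((single_le_sum (fun U _ => nn T U) (mem_univ U)).trans
          (single_le_sum (fun T _ => sum_nonneg fun U _ => nn T U) (mem_univ T))))
      have := sq_le_sq' (abs_le.1 this).1 (abs_le.1 this).2
      rwa [mul_pow, Real.sq_sqrt S0, ← sq, ← pow_mul] at this
    · rcases not_and_or.1 c with c | c <;> simp [wt, c]
  have a2 : ∀ T U, ∑ x, ∑ y, (if St x y T U then wt k x * wt k y else 0) ≤ if df T U ≤ 8 * e + 9 then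
      n * (2 * (n ^ 2 + 1) ^ (8 * (e + 1)) * Q * ∑ η, wt k η) * min (wt k T) (wt k U) else 0 := fun T U => by
    split_ifs with c
    · have b : ∀ W, (∀ x y, St x y T U → ∃ v : Fin n, ∃ F, Rep x y k (4 * (e + 1)) Q v v F W) →
          ∑ x, ∑ y, (if St x y T U then wt k x * wt k y else 0) ≤
            n * (2 * (n ^ 2 + 1) ^ (8 * (e + 1)) * Q * ∑ η, wt k η) * wt k W := fun W h => by
        have := sum_le_sum fun (v : Fin n) (_ : v ∈ univ) => cong k (4 * (e + 1)) (Q := Q) (by positivity) v v W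
        rw [sum_const, card_univ, Fintype.card_fin, nsmul_eq_mul, ← mul_assoc 2 4, sum_comm] at this
        refine le_trans (sum_le_sum fun x _ => ?_) (this.trans_eq (by ring))
        rw [sum_comm]
        refine sum_le_sum fun y _ => ?_
        have nn : ∀ v ∈ (univ : Finset (Fin n)), 0 ≤ if ∃ F, Rep x y k (4 * (e + 1)) Q v v F W then
            wt k x * wt k y else 0 := fun v _ => by
          split_ifs
          exacts [mul_nonneg (wt_nonneg _ _) (wt_nonneg _ _), le_rfl]
        split_ifs with d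
        · obtain ⟨v, d⟩ := h x y d
          exact le_trans (by rw [if_pos d]) (single_le_sum nn (mem_univ v))
        · exact sum_nonneg nn
      rw [mul_min_of_nonneg _ _ (by positivity)]
      exact le_min (b T fun x y h => h.2.imp fun _ h => h.1) (b U fun x y h => h.2.imp fun _ h => h.2)
    · simp [hSt, c]
  have a3 := sum_le_sum fun x (_ : x ∈ univ) => sum_le_sum fun y (_ : y ∈ univ) => a1 x y
  have a4 : ∑ x, ∑ y, wt k x * wt k y * (f x - f y) ^ 2 = 2 * (∑ η, wt k η) * ∑ x, wt k x * f x ^ 2 := by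
    have : ∀ x y, wt k x * wt k y * (f x - f y) ^ 2 = wt k x * f x ^ 2 * wt k y + wt k x * (wt k y * f y ^ 2) -
      2 * (wt k x * f x * (wt k y * f y)) := fun x y => by ring
    simp only [this, sum_sub_distrib, sum_add_distrib, ← mul_sum, ← sum_mul, h0]
    ring
  simp only [← mul_sum] at a3
  rw [a4, sum_congr rfl fun x _ => sum_comm, sum_comm, sum_congr rfl fun x _ => sum_congr rfl fun y _ => sum_comm,
    sum_congr rfl fun x _ => sum_comm] at a3
  simp only [← sum_mul] at a3
  refine le_of_mul_le_mul_left (a3.trans ?_) (by positivity)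
  rw [← mul_assoc, show 2 * (∑ η, wt k η) * (n ^ 5 * (n ^ 2 + 1) ^ (8 * (e + 1)) * Q) =
    n ^ 4 * (n * (2 * (n ^ 2 + 1) ^ (8 * (e + 1)) * Q * ∑ η, wt k η)) by ring, mul_assoc]
  refine mul_le_mul_of_nonneg_left ?_ (by positivity)
  simp only [mul_sum]
  refine sum_le_sum fun T _ => sum_le_sum fun U _ =>
    (mul_le_mul_of_nonneg_right (a2 T U) (sq_nonneg _)).trans_eq ?_
  split_ifs
  · simp only [mul_sum]
    ring
  · simp

end Vale.Agent.P308
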