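import Vale.Agent.P308.Chain
import Vale.Agent.P308.Algo

/-! Semantics of the machine. -/

namespace Vale.Agent.P308

open Finset Vale.Agent.Common.TreeTM Vale.Agent.P337 Vale.Agent.P317

/-- Expected value after a list of instructions. -/
noncomputable def Kn (p : Par) : List ℕ → (St → ℝ) → St → ℝ
  | [], G, s => G s
  | i :: is, G, s => Ex (bb p) fun v => Kn p is G (upd p i s v)

theorem Kn_append (p : Par) (a b : List ℕ) (G : St → ℝ) : Kn p (a ++ b) G = Kn p a (Kn p b G) := by
  induction a with
  | nil => rfl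
  | cons i a ih => funext s; simp only [List.cons_append, Kn, ih]

theorem Kn_nonneg (p : Par) (a : List ℕ) {G : St → ℝ} (h : ∀ s, 0 ≤ G s) : ∀ s, 0 ≤ Kn p a G s := by
  induction a with
  | nil => exact h
  | cons i a ih => exact fun s => (Ex_const _ 0).ge.trans (Ex_mono _ fun _ _ => ih _)

theorem master (p : Par) (G : St → ℝ) (is : List ℕ) : ∀ s k ρ, is.length ≤ k → bb p * is.length ≤ ρ →
    Ex ρ (fun c => G ((ms p)^[k] (s, c, is)).1) = Kn p is G s := by
  induction is with
  | nil =>
    intro s k ρ _ _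
    refine (Ex_congr _ fun c _ => ?_).trans (Ex_const ρ (G s))
    rw [Function.iterate_fixed rfl]
  | cons i is ih =>
    intro s k ρ h1 h2
    rw [List.length_cons] at h1 h2
    obtain ⟨k, rfl⟩ : ∃ k', k = k' + 1 := ⟨k - 1, by omega⟩
    rw [mul_add, mul_one] at h2
    obtain ⟨ρ, rfl⟩ : ∃ r, ρ = bb p + r := ⟨ρ - bb p, by omega⟩
    rw [Ex_add, Kn]
    refine Ex_congr _ fun u hu => ?_
    rw [← ih _ k ρ (by omega) (by omega)]
    refine Ex_congr _ fun v _ => ?_
    simp only [Function.iterate_succ_apply, ms, isCons, List.isEmpty_cons, Bool.not_false,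
      Bool.cond_true, List.headD_cons, List.tail_cons, List.take_left' hu, List.drop_left' hu]

variable {n P s : ℕ} {A : List (List Bool)} {U : List Bool}

theorem rg_eq {k : ℕ} (h : k ≤ U.length) : rg (n, P, s, A, U) k = List.range k := by
  simp [rg, idx, h]

theorem sum_rg (k : ℕ) (f : ℕ → ℕ) : ((List.range k).map f).sum = ∑ a : Fin k, f a := by
  rw [Fin.sum_univ_eq_sum_range]
  induction k with
  | zero => rfl
  | succ k ih => simp [List.range_succ, sum_range_succ, ih]

/-- The list of values of a map. -/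
def lst (T : Fin n → Fin n) : List ℕ := (List.range n).map fun u => if h : u < n then (T ⟨u, h⟩ : ℕ) else 0

theorem gn_lst (T : Fin n → Fin n) (a : Fin n) : gn (lst T) a = T a := by
  simp [gn, lst, List.getD_eq_getElem?_getD]

theorem mk_eq {f : ℕ → ℕ} {T : Fin n → Fin n} (h : ∀ a : Fin n, f a = T a) : (List.range n).map f = lst T :=
  List.map_congr_left fun k hk => by
    rw [List.mem_range] at hk
    simp [h ⟨k, hk⟩, hk]

/-- The current costs. -/
def kf (n P : ℕ) (u d : List (ℕ × ℕ)) (a b : Fin n) : ℕ := kk P u d a b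

theorem sw_eq (a b u : Fin n) : sw a b u = Equiv.swap a b u := by
  simp only [sw, neq, Bool.cond_decide, Fin.val_inj, Equiv.swap_apply_def]
  split_ifs <;> rfl

variable (hU : n ≤ U.length)
include hU

theorem nrm_lst (T : Fin n → Fin n) : nrm (n, P, s, A, U) (lst T) = lst T := by
  rw [nrm, rg_eq hU]
  exact mk_eq fun a => by simp [gn_lst]

theorem prp_lst (T : Fin n → Fin n) (v : List Bool) :
    prp (n, P, s, A, U) (lst T) v = lst (p1 (LL (n, P, s, A, U)) v T) := by
  simp only [prp, p1, pa, pb, rg_eq hU]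
  split_ifs with h
  · rw [show nlt _ n = true from decide_eq_true h.1, show nlt _ n = true from decide_eq_true h.2]
    exact mk_eq fun u => by rw [cj, ← sw_eq, ← gn_lst, ← sw_eq]
  · rw [nlt, nlt, ← Bool.decide_and, decide_eq_false h]
    rfl

theorem en_lst (u d : List (ℕ × ℕ)) (T : Fin n → Fin n) :
    en (n, P, s, A, U) u d (lst T) = En (kf n P u d) T := by
  simp only [en, rg_eq hU, sum_rg, gn_lst, En, kf]

theorem Kn_prop (G : St → ℝ) (r : List (List ℕ) × List (ℕ × ℕ) × List (ℕ × ℕ) × List ℕ × Bool) (S : List ℕ) :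
    ∀ W : Fin n → Fin n, Kn (n, P, s, A, U) (S.map fun _ => 1) G (lst W, r) =
      (Pm (LL (n, P, s, A, U)) (P ^ 11))^[S.length] (fun W' => G (lst W', r)) W := by
  induction S with
  | nil => exact fun _ => rfl
  | cons t S ih =>
    intro W
    rw [List.map_cons, Kn, List.length_cons, Function.iterate_succ_apply', Pm]
    exact Ex_congr _ fun v _ => by
      simp only [upd, show neq 1 0 = false from rfl, show neq 1 1 = true from rfl, Bool.cond_false,
        Bool.cond_true, prp_lst hU, nrm_lst hU, ih]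

variable (hL : 8 * LL (n, P, s, A, U) + 9 ≤ U.length)
include hL

theorem Kn_steps (G : St → ℝ) (m : List (List ℕ)) (u d : List (ℕ × ℕ)) (r : List ℕ × Bool) (S : List ℕ) :
    ∀ T : Fin n → Fin n, Kn (n, P, s, A, U) (S.flatMap fun _ => stI (n, P, s, A, U)) G
      (lst T, lst T :: m, u, d, r) = (tr (kf n P u d) (LL (n, P, s, A, U)) (P ^ 11)
        (8 * LL (n, P, s, A, U) + 9))^[S.length] (fun T' => G (lst T', lst T' :: m, u, d, r)) T := by
  induction S with
  | nil => exact fun _ => rfl
  | cons t S ih =>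
    intro T
    rw [List.flatMap_cons, Kn_append, List.length_cons, Function.iterate_succ_apply' (tr _ _ _ _), tr,
      ← funext ih]
    generalize Kn _ (S.flatMap _) G = G'
    rw [stI, Kn_append, Kn_prop hU, rg_eq hL, List.length_range]
    refine congrFun (congrArg _ (funext fun W => Ex_congr _ fun v _ => ?_)) _
    simp only [Kn, upd, show neq 2 0 = false from rfl, show neq 2 1 = false from rfl,
      show neq 2 2 = true from rfl, Bool.cond_false, Bool.cond_true, ok, List.headD_cons, en_lst hU, nrm_lst hU,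
      List.tail_cons, ac]
    cases (List.take _ v).all (!·) <;> rfl

theorem Kn_batch {T0 : Fin n → Fin n} (h0 : t0 (n, P, s, A, U) = lst T0)
    (H : List (List ℕ) × List (ℕ × ℕ) × List (ℕ × ℕ) × List ℕ × Bool → ℝ) (u d : List (ℕ × ℕ))
    (r : List ℕ × Bool) (S M : List ℕ) : ∀ (c : List ℕ) (l : List (Fin n → Fin n)),
    Kn (n, P, s, A, U) (M.flatMap fun _ => 0 :: S.flatMap fun _ => stI (n, P, s, A, U)) (fun z => H z.2)
      (c, l.map lst, u, d, r) = Bt (fun g => (tr (kf n P u d) (LL (n, P, s, A, U)) (P ^ 11)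
        (8 * LL (n, P, s, A, U) + 9))^[S.length] g T0) M.length (fun l' => H (l'.map lst, u, d, r)) l := by
  induction M with
  | nil => exact fun _ _ => rfl
  | cons t M ih =>
    intro c l
    rw [List.flatMap_cons, List.cons_append, Kn, List.length_cons, Bt, Kn_append]
    refine (Ex_congr _ fun v _ => ?_).trans (Ex_const _ _)
    simp only [upd, show neq 0 0 = true from rfl, Bool.cond_true, h0, Kn_steps hU hL]
    exact congrFun (congrArg _ (funext fun T => ih _ (T :: l))) _

theorem Kn_rnd {T0 : Fin n → Fin n} (h0 : t0 (n, P, s, A, U) = lst T0) (hM : P ^ 24 * s ≤ U.length)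
    (hT : TT (n, P, s, A, U) ≤ U.length) (G : St → ℝ) (u d : List (ℕ × ℕ)) (r : List ℕ × Bool) :
    Kn (n, P, s, A, U) (rnd (n, P, s, A, U)) G ([], [], u, d, r) =
      Bt (fun g => (tr (kf n P u d) (LL (n, P, s, A, U)) (P ^ 11) (8 * LL (n, P, s, A, U) + 9))^[TT (n, P, s, A, U)]
        g T0) (P ^ 24 * s) (fun l => G ([], [], endr (n, P, s, A, U) (l.map lst) (u, d, r))) [] := by
  have := Kn_batch hU hL h0 (fun z => G ([], [], endr (n, P, s, A, U) z.1 z.2)) u d r
    (List.range (TT (n, P, s, A, U))) (List.range (P ^ 24 * s)) [] []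
  rw [List.length_range, List.length_range, List.map_nil] at this
  rw [rnd, MM, rg_eq hM, rg_eq hT, Kn_append, ← this]
  congr 1
  funext z
  exact Ex_const _ (G ([], [], endr (n, P, s, A, U) z.2.1 z.2.2))

end Vale.Agent.P308
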