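import Vale.Agent.P308.Anal
import Vale.Agent.P308.Sem

/-! Mixing under the invariant; one round. -/

namespace Vale.Agent.P308

open Finset Vale.Agent.Common.TreeTM Vale.Agent.P337 Vale.Agent.P317

variable {n P s : ℕ} {A : List (List Bool)} {U : List Bool}

theorem ex_t0 (hU : n ≤ U.length) (hn : n % 2 = 0) : ∃ T0 : Fin n → Fin n, PM T0 ∧ t0 (n, P, s, A, U) = lst T0 := by
  refine ⟨fun u => ⟨if (u : ℕ) % 2 = 0 then u + 1 else u - 1, by have := u.2; split_ifs <;> omega⟩, fun u => ?_, ?_⟩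
  · simp only [Fin.ext_iff, ne_eq]
    split_ifs <;> omega
  · rw [t0, rg_eq hU]
    exact mk_eq fun a => by simp [neq]

theorem Z_pos {T0 : Fin n → Fin n} (h0 : PM T0) (k : Fin n → Fin n → ℕ) : 0 < ∑ T, wt k T :=
  lt_of_lt_of_le (by rw [wt_pm h0]; positivity) (single_le_sum (fun T _ => wt_nonneg k T) (mem_univ T0))

theorem mix {cp k : Fin n → Fin n → ℕ} {j l : ℕ} {e : ℝ} {d : Bool} (h : Inv P cp j k e d) (hP : 64 * (n + 2) ≤ P)
    (hc : ∀ a b, cp a b ≤ P ^ 9 + P ^ 2) (hl : P < 2 ^ l) {T0 : Fin n → Fin n} (h0 : PM T0) (a b : Fin n) :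
    |(tr k l (P ^ 11) (8 * l + 9))^[2 ^ (120 * l ^ 3)] (fun T => if decide (T a = b) then 1 else 0) T0 -
      num k a b / ∑ T, wt k T| ≤ 1 / P ^ 11 := by
  have hZ := Z_pos h0 k
  have l8 : 8 ≤ l := (Nat.pow_lt_pow_iff_right one_lt_two (n := 7)).1 (by omega)
  have n2 : n ^ 2 + 1 ≤ 2 ^ (2 * l) := by
    rw [mul_comm, pow_mul]
    exact Nat.pow_lt_pow_left (by omega) two_ne_zero
  have p0 : (0 : ℝ) < P := by exact_mod_cast (by omega : 0 < P)
  obtain ⟨g, hg⟩ := tre h.sym (κ := 15 * l) (e := l) (by omega) a fun _ _ _ _ => four h.sym hZ (by positivity) (by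
    have := Nat.mul_le_mul (Nat.pow_le_pow_left n2 8) (Nat.mul_le_mul (Nat.pow_le_pow_left hl.le 12)
      (Nat.pow_le_pow_right two_pos (show 7 ≤ 2 * l by omega)))
    rw [← pow_mul, ← pow_mul 2, ← pow_add, ← pow_add, show 2 * l * 8 + (l * 12 + 2 * l) = 2 * (15 * l) by ring,
      pow_mul 2 2] at this
    rw [one_div_pow, one_div_mul_eq_div, le_div_iff₀ (by positivity)]
    refine le_trans (le_of_eq (by ring)) (show ((n : ℝ) ^ 2 + 1) ^ 8 * (P ^ 12 * 2 ^ 7) ≤ _ from ?_)
    exact_mod_cast this) fun _ _ => h.marg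
  have hB : ∀ T, En k T < P ^ 11 := fun T => by
    have := sum_le_card_nsmul univ (fun u => k u (T u)) _ fun u _ => (h.ub u _).trans (hc _ _)
    rw [card_univ, Fintype.card_fin, smul_eq_mul] at this
    have b1 : P ^ 2 ≤ P ^ 9 := Nat.pow_le_pow_right (by omega) (by norm_num)
    have b2 : 0 < P ^ 9 := Nat.pow_pos (by omega)
    have b3 : P ^ 10 ≤ P ^ 11 := Nat.pow_le_pow_right (by omega) (by norm_num)
    rw [En]
    nlinarith [pow_succ P 9]
  have m := mixing hg (e := l) (by omega) a hB hZ (fun T => if decide (T a = b) then 1 else 0)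
    (fun T => by split_ifs <;> norm_num) T0 (2 ^ (120 * l ^ 3))
  simp only [decide_eq_true_eq] at m ⊢
  refine abs_le_of_sq_le_sq (le_of_mul_le_mul_left (m.trans ?_) (show 0 < wt k T0 by rw [wt_pm h0]; positivity)) (by positivity)
  have n0 : (0 : ℝ) < n := by exact_mod_cast a.pos
  have a1 : (P : ℝ) ^ 12 ≤ (2 ^ (120 * l ^ 3) : ℕ) * (((1 / 4) ^ l) ^ (8 * l + 9) / (2 * (n ^ 5 *
      (n ^ 2 + 1) ^ (8 * (l + 1)) * 2 ^ (15 * l * l * (4 * (l + 1))))) / 2) := by
    rw [one_div_pow, one_div_pow, div_div, div_div, mul_one_div, le_div_iff₀ (by positivity)]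
    have := Nat.mul_le_mul (Nat.pow_le_pow_left hl.le 12) (Nat.mul_le_mul_left ((2 ^ (2 * l)) ^ (8 * l + 9))
      (Nat.mul_le_mul_right 2 (Nat.mul_le_mul_left 2 (Nat.mul_le_mul_right (2 ^ (15 * l * l * (4 * (l + 1))))
      (Nat.mul_le_mul (Nat.pow_le_pow_left (show n ≤ 2 ^ l by omega) 5) (Nat.pow_le_pow_left n2 (8 * (l + 1))))))))
    rw [pow_mul 2 2] at this
    refine Nat.cast_le.2 (this.trans ?_) |>.trans' (le_of_eq (by push_cast; rfl))
    simp only [← pow_mul, ← pow_add, ← pow_succ, ← pow_succ']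
    refine Nat.pow_le_pow_right two_pos ?_
    nlinarith [Nat.mul_le_mul_right (l * l) l8, Nat.mul_le_mul_right l l8]
  have a2 : ∑ T, wt k T ≤ Real.exp (P ^ 2) := by
    have := sum_le_card_nsmul univ (wt k) 1 fun T _ => by
      unfold wt
      split_ifs
      · exact pow_le_one₀ (by norm_num) (by norm_num)
      · norm_num
    rw [card_univ, Fintype.card_fun, Fintype.card_fin, nsmul_eq_mul, mul_one, Nat.cast_pow] at this
    refine this.trans ((nn_le n).trans ((two_le_exp _).trans (Real.exp_le_exp.2 ?_)))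
    exact_mod_cast (sq n).ge.trans (Nat.pow_le_pow_left (by omega) 2)
  have a3 : Real.exp (-P ^ 11) ≤ wt k T0 := by
    rw [wt_pm h0, Real.exp_neg, one_div, inv_pow]
    refine inv_anti₀ (by positivity) ((two_le_exp _).trans (Real.exp_le_exp.2 ?_))
    exact_mod_cast (hB T0).le
  have a4 : Real.exp (-(22 * P)) ≤ (1 / P ^ 11) ^ 2 := by
    rw [Real.exp_neg, one_div, inv_pow, ← pow_mul, show (22 : ℝ) * P = (11 * 2 : ℕ) * P by norm_num,
      Real.exp_nat_mul]
    exact inv_anti₀ (by positivity) (pow_le_pow_left₀ p0.le (by linarith [Real.add_one_le_exp (P : ℝ)]) _)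
  refine (mul_le_mul (Real.exp_le_exp.2 (neg_le_neg a1)) a2 hZ.le (Real.exp_pos _).le).trans
    (le_trans ?_ (mul_le_mul a3 a4 (Real.exp_pos _).le (wt_nonneg _ _)))
  rw [← Real.exp_add, ← Real.exp_add, Real.exp_le_exp]
  have p1 : (128 : ℝ) ≤ P := by exact_mod_cast (by omega : 128 ≤ P)
  have b1 : (P : ℝ) ^ 2 ≤ P ^ 11 := pow_le_pow_right₀ (by linarith) (by norm_num)
  have b2 : (P : ℝ) ≤ P ^ 11 := le_self_pow₀ (by linarith) (by norm_num)
  nlinarith [mul_le_mul_of_nonneg_right p1 (pow_pos p0 11).le, pow_succ' (P : ℝ) 11]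

/-- The current estimate. -/
noncomputable def est (M D : ℕ) (f : List ℕ) : ℝ := ((D * f.prod : ℕ) : ℝ) / ((4 * M) ^ f.length : ℕ)

theorem est_cons {M : ℕ} (D c : ℕ) (f : List ℕ) : est M D (c :: f) = est M D f * (c / (4 * M)) := by
  simp only [est, List.prod_cons, List.length_cons, pow_succ]
  push_cast
  ring

theorem pick_spec (hU : n ≤ U.length) (F : ℕ × ℕ → Bool) : (isCons ((prs (n, P, s, A, U)).filter F) = false →
    ∀ a b : Fin n, a ≠ b → F (a, b) = false) ∧ (isCons ((prs (n, P, s, A, U)).filter F) = true →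
    ∃ a b : Fin n, a ≠ b ∧ F (a, b) = true ∧ pick (n, P, s, A, U) ((prs (n, P, s, A, U)).filter F) = (a.1, b.1)) := by
  have m : ∀ q, q ∈ (prs (n, P, s, A, U)).filter F ↔ (q.1 < n ∧ q.2 < n ∧ q.1 ≠ q.2) ∧ F q = true := fun q => by
    simp only [List.mem_filter, prs, rg_eq hU, List.mem_flatMap, List.mem_range, List.mem_map, neq,
      Bool.not_eq_true', decide_eq_false_iff_not]
    grind
  generalize List.filter _ _ = L at *
  cases L with
  | nil => exact ⟨fun _ a b c => by simpa [Fin.val_inj, c] using m (a, b), nofun⟩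
  | cons q L =>
    obtain ⟨⟨h1, h2, h3⟩, h4⟩ := (m q).1 (by simp)
    exact ⟨nofun, fun _ => ⟨⟨_, h1⟩, ⟨_, h2⟩, by simpa using h3, h4, by simp [pick, h1.le, h2.le]⟩⟩

theorem mt_eq (a b u v : Fin n) : (if mt u v (a, b) then 1 else 0) = mtf a b u v := by
  simp only [mt, mtf, neq, Fin.val_inj, Bool.or_eq_true, Bool.and_eq_true, decide_eq_true_eq]
  grind

theorem round (hU : n ≤ U.length) (hP : 64 * (n + 2) ≤ P) (hs : 0 < s) {j D : ℕ} (hj : j < P ^ 9)
    (hc : ∀ a b : Fin n, cap (n, P, s, A, U) a b = cap (n, P, s, A, U) b a) {u d : List (ℕ × ℕ)} {f : List ℕ}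
    {z : Bool} (h : Inv P (fun a b => cap (n, P, s, A, U) a b) j (kf n P u d) (est (P ^ 24 * s) D f) z)
    (hZ : 0 < ∑ T, wt (kf n P u d) T) (l : List (Fin n → Fin n)) (hl : l.length = P ^ 24 * s)
    (hx : ∀ a b : Fin n, |(l.countP (fun T => decide (T a = b)) : ℝ) - (P ^ 24 * s : ℕ) *
      (num (kf n P u d) a b / ∑ T, wt (kf n P u d) T)| ≤ 3 * (1 / P ^ 11) * (P ^ 24 * s : ℕ)) :
    ∃ u' d' f' z', endr (n, P, s, A, U) (l.map lst) (u, d, f, z) = (u', d', f', z') ∧
      Inv P (fun a b => cap (n, P, s, A, U) a b) (j + 1) (kf n P u' d') (est (P ^ 24 * s) D f') z' := by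
  cases z
  swap
  · exact ⟨_, _, _, _, rfl, h.idle (h.fin rfl)⟩
  have p1 : (128 : ℝ) ≤ P := by exact_mod_cast (by omega : 128 ≤ P)
  have c0 : ∀ a b : Fin n, cn (l.map lst) (a, b) = l.countP fun T => decide (T a = b) := fun a b => by
    simp [cn, List.countP_map, Function.comp_def, gn_lst, neq, Fin.val_inj]
  have c1 : ∀ a b : Fin n, cn (l.map lst) (a, b) ≤ P ^ 24 * s := fun a b => by
    rw [c0, ← hl]
    exact List.countP_le_length
  have M0 : (0 : ℝ) < (P ^ 24 * s : ℕ) := by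
    have : 0 < P := by omega
    positivity
  simp only [← c0] at hx
  have e : MM (n, P, s, A, U) = P ^ 24 * s := rfl
  simp only [endr, Bool.cond_false, lo, hi, e]
  generalize P ^ 24 * s = M at *
  replace hx : ∀ a b : Fin n, |num (kf n P u d) a b / (∑ T, wt (kf n P u d) T) - cn (l.map lst) (a, b) / M| ≤
      3 / P ^ 11 := fun a b => by
    have := hx a b
    generalize num _ _ _ / _ = θ at *
    generalize (cn _ _ : ℝ) = c at *
    rw [abs_sub_comm, show c / M - θ = (c - M * θ) / M by field_simp, abs_div, abs_of_pos M0, div_le_iff₀ M0]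
    exact this.trans_eq (by ring)
  have g : (3 : ℝ) / P ^ 11 ≤ 1 / P ^ 6 := by
    rw [div_le_div_iff₀ (by positivity) (by positivity), one_mul, show 11 = 5 + 6 from rfl, pow_add]
    exact mul_le_mul_of_nonneg_right (le_trans (by linarith) (le_self_pow₀ (by linarith) (by norm_num)))
      (by positivity)
  have lt : ∀ (a b : Fin n) (c : ℕ), cn (l.map lst) (a, b) * P ^ 6 < c * M →
      num (kf n P u d) a b < (c + 1) / P ^ 6 * ∑ T, wt (kf n P u d) T := fun a b c t => by
    have : (cn (l.map lst) (a, b) : ℝ) / M < c / P ^ 6 := by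
      rw [div_lt_div_iff₀ M0 (by positivity)]
      exact_mod_cast t
    rw [← div_lt_iff₀ hZ, add_div]
    linarith [(abs_le.1 (hx a b)).2]
  have ge : ∀ (a b : Fin n) (c : ℕ), ¬cn (l.map lst) (a, b) * P ^ 6 < c * M →
      (c - 1) / P ^ 6 * ∑ T, wt (kf n P u d) T ≤ num (kf n P u d) a b := fun a b c t => by
    have : (c : ℝ) / P ^ 6 ≤ (cn (l.map lst) (a, b) : ℝ) / M := by
      rw [div_le_div_iff₀ (by positivity) M0]
      exact_mod_cast not_lt.1 t
    rw [← le_div_iff₀ hZ, sub_div]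
    linarith [(abs_le.1 (hx a b)).1]
  have k1 : ∀ a b : Fin n, 0 < P ^ 9 + u.countP (mt a b) - d.countP (mt a b) := fun a b => by
    have := h.lb a b
    simp only [kf, kk] at this
    omega
  obtain ⟨q1, q2⟩ := pick_spec (P := P) (s := s) (A := A) hU fun q => nlt (cn (l.map lst) q * P ^ 6) (2 * M)
  obtain ⟨q3, q4⟩ := pick_spec (P := P) (s := s) (A := A) hU fun q => nlt (kk P u d q.1 q.2)
    (cap (n, P, s, A, U) q.1 q.2) && !nlt (cn (l.map lst) q * P ^ 6) (24 * M)
  cases t : isCons _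
  swap
  · obtain ⟨a, b, ab, t1, t2⟩ := q2 t
    refine ⟨_, _, _, _, rfl, ?_⟩
    rw [t2, min_eq_left (by have := c1 a b; omega), est_cons]
    convert h.boost hZ (fun x y => ?_) ab (hx a b) (by positivity) ((lt a b 2 (of_decide_eq_true t1)).trans_eq
      (by norm_num)) using 2
    · push_cast
      field_simp
      ring
    · have := k1 x y
      simp only [kf, kk, List.countP_cons, ← mt_eq]
      split_ifs <;> omega
  simp only [Bool.cond_false]
  cases t' : isCons _
  · refine ⟨_, _, _, _, rfl, h.idle fun a b ab => ?_⟩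
    have := q3 t' a b ab
    simp only [nlt, Bool.and_eq_false_imp, decide_eq_true_eq, Bool.not_eq_false'] at this
    rcases (h.ub a b).lt_or_eq with c | c
    · exact .inr ((lt a b 24 (this c)).le.trans_eq (by norm_num))
    · exact .inl c
  · obtain ⟨a, b, ab, t1, t2⟩ := q4 t'
    simp only [nlt, Bool.and_eq_true, decide_eq_true_eq, Bool.not_eq_true', decide_eq_false_iff_not] at t1
    refine ⟨_, _, _, _, rfl, ?_⟩
    rw [t2, est_cons]
    convert h.raise hP hZ (fun x y => ?_) ab (hx a b) ((div_le_one M0).2 (by exact_mod_cast c1 a b))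
      ((ge a b 24 t1.2).trans_eq' (by norm_num)) t1.1 (hc a b) (fun x y c => (ge x y 2
        (of_decide_eq_false (q1 t x y c))).trans_eq' (by norm_num)) using 2
    · rw [Nat.cast_sub (by have := c1 a b; omega)]
      push_cast
      field_simp
    · have := k1 x y
      simp only [kf, kk, List.countP_cons, ← mt_eq]
      split_ifs <;> omega

end Vale.Agent.P308
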